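import Vale.Agent.P286E17.Wy

/-!
# The cohomology of the invariant complex when `sl₂` acts trivially
-/

set_option linter.all false

namespace Vale.Agent.P286E17

open Matrix MvPolynomial TensorProduct Vale.Agent.P286EI Vale.Agent.P286ES Module

noncomputable section

theorem dg_mX (c : Fin 3 ⊕ Fin 3 → ℕ) (a : Fin 3) :
    Dg (eu c).toLinearMap (mX a) (c (.inl a)) := dg_mul c (by rw [Int.cast_natCast]; exact eu_X c _)

theorem dg_mK (c : Fin 3 ⊕ Fin 3 → ℕ) (a : Fin 3) :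
    Dg (eu c).toLinearMap (mK a) (c (.inr a)) := dg_mul c (by rw [Int.cast_natCast]; exact eu_X c _)

theorem dg_dX (c : Fin 3 ⊕ Fin 3 → ℕ) (a : Fin 3) :
    Dg (eu c).toLinearMap (dX a) (-(c (.inl a) : ℤ)) := dg_pd c _

theorem dg_dK (c : Fin 3 ⊕ Fin 3 → ℕ) (a : Fin 3) :
    Dg (eu c).toLinearMap (dK a) (-(c (.inr a) : ℤ)) := dg_pd c _

theorem dg_E (c : Fin 3 ⊕ Fin 3 → ℕ) {s : ℤ} (h : ∀ a, s = c (.inl a) + -(c (.inr a) : ℤ)) :
    Dg (eu c).toLinearMap (-dE.toLinearMap) s := by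
  rw [dE_eq]
  exact (Dg.sum _ fun a => (dg_mX c a).mul (dg_dK c a) (h a)).neg

theorem dg_F (c : Fin 3 ⊕ Fin 3 → ℕ) {s : ℤ} (h : ∀ a, s = c (.inr a) + -(c (.inl a) : ℤ)) :
    Dg (eu c).toLinearMap (-dF.toLinearMap) s := by
  rw [dF_eq]
  exact (Dg.sum _ fun a => (dg_mK c a).mul (dg_dX c a) (h a)).neg

theorem dg_KK (c : Fin 3 ⊕ Fin 3 → ℕ) (h : ∀ a, c (.inr a) = 1) :
    Dg (eu c).toLinearMap ((-2⁻¹ : ℂ) • ∑ a, dK a * dK a) (-2) :=
  (Dg.sum _ fun a => (dg_dK c a).mul (dg_dK c a) (by rw [h]; rfl)).smul _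

theorem dg_XX (c : Fin 3 ⊕ Fin 3 → ℕ) (h : ∀ a, c (.inl a) = 1) :
    Dg (eu c).toLinearMap ((-2⁻¹ : ℂ) • ∑ a, dX a * dX a) (-2) :=
  (Dg.sum _ fun a => (dg_dX c a).mul (dg_dX c a) (by rw [h]; rfl)).smul _

theorem dg_xd (a b : Fin 3) : Dg Eu (mX a * dX b) 0 := (dg_mX _ a).mul (dg_dX _ b) (by simp)

theorem dg_kd (a b : Fin 3) : Dg Eu (mK a * dK b) 0 := (dg_mK _ a).mul (dg_dK _ b) (by simp)

theorem dg_ro (c : Fin 3) : Dg Eu (ro c).toLinearMap 0 := by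
  rw [ro_eq]
  exact ((dg_xd _ _).sub (dg_xd _ _)).add ((dg_kd _ _).sub (dg_kd _ _))

theorem const_of_Eu {f : PP} (h : Eu f = 0) : ∃ a : ℂ, f = Algebra.linearMap ℂ PP a := by
  have h1 : ∀ f : PP, ∃ a : ℂ, f - C a ∈ ⨆ j : ℕ, Eu.eigenspace ((j + 1 : ℕ) : ℂ) := by
    intro f
    induction f using MvPolynomial.induction_on with
    | C z => exact ⟨z, by simp⟩
    | add p q hp hq =>
      obtain ⟨a, ha⟩ := hp
      obtain ⟨b, hb⟩ := hq
      exact ⟨a + b, by rw [map_add, add_sub_add_comm]; exact add_mem ha hb⟩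
    | mul_X p i _ =>
      refine ⟨0, ?_⟩
      rw [map_zero, sub_zero, mul_comm]
      refine Submodule.iSup_induction (motive := fun p => X i * p ∈
        ⨆ j : ℕ, Eu.eigenspace ((j + 1 : ℕ) : ℂ)) _ (nd_eu (fun _ => 1) p) (fun j p hp => ?_)
        (by simp) fun p q hp hq => by rw [mul_add]; exact add_mem hp hq
      refine Submodule.mem_iSup_of_mem j (End.mem_eigenspace_iff.2 ?_)
      have h := (dg_mul (fun _ => 1) (g := X i) (s := 1) (by rw [eu_X]; simp)).eig (j := j)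
        (x := p) (by exact_mod_cast End.mem_eigenspace_iff.1 hp)
      exact_mod_cast h
  obtain ⟨a, ha⟩ := h1 f
  refine ⟨a, sub_eq_zero.1 (Submodule.disjoint_def.1 (End.eigenspaces_iSupIndep Eu 0) _
    (End.mem_eigenspace_iff.2 ?_) ((?_ : (⨆ j : ℕ, Eu.eigenspace ((j + 1 : ℕ) : ℂ)) ≤ _) ha))⟩
  · rw [map_sub, h, zero_smul, zero_sub, neg_eq_zero]
    exact Derivation.map_algebraMap _ a
  · exact iSup_le fun j => le_iSup₂_of_le (f := fun (μ : ℂ) (_ : μ ≠ 0) => Eu.eigenspace μ)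
      ((j + 1 : ℕ) : ℂ) (Nat.cast_ne_zero.2 (Nat.succ_ne_zero j)) le_rfl

namespace BW

variable {B W : Type} [Ring B] [Algebra ℂ B] [AddCommGroup W] [Module ℂ W] (β : BW B W)

theorem dg_cj {u T : End ℂ (PP ⊗[ℂ] W)} {s : ℤ} (h : Dg u T s) : Dg (β.cj u) (β.cj T) s :=
  fun z => by
    obtain ⟨z, rfl⟩ := β.Φ.surjective z
    simp only [cj_Φ, h z, map_add, map_smul]

theorem dg_σ {u T : End ℂ PP} {s : ℤ} (h : Dg u T s) : Dg (β.σ u) (β.σ T) s :=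
  β.dg_cj (h.ten LinearMap.id)

theorem dg_τ (u : End ℂ PP) (S : End ℂ W) : Dg (β.σ u) (β.τ S) 0 := fun z => by
  rw [Int.cast_zero, zero_smul, add_zero]
  exact LinearMap.congr_fun (β.σ_τ u S) z

theorem nd_σ {u : End ℂ PP} (h : Nd u) : Nd (β.σ u) := fun z => by
  obtain ⟨z, rfl⟩ := β.Φ.surjective z
  refine Submodule.iSup_induction (motive := fun z => β.Φ z ∈
    ⨆ j : ℕ, End.eigenspace (β.σ u) (j : ℂ)) _ (h.ten z) (fun j z hz => ?_) (by simp)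
    fun p q hp hq => by rw [map_add]; exact add_mem hp hq
  refine Submodule.mem_iSup_of_mem j (End.mem_eigenspace_iff.2 ?_)
  rw [σ_eq, cj_Φ, End.mem_eigenspace_iff.1 hz, map_smul]

theorem p_q (a : Fin 3) : β.p a * β.q = β.q * β.p a + (2 : ℂ) • β.x a := by
  have h : ∀ b, β.p a * (β.x b * β.x b) = β.x b * β.x b * β.p a +
      if a = b then (2 : ℂ) • β.x a else 0 := fun b => by
    rw [← mul_assoc, β.px, add_mul, mul_assoc, β.px]
    split_ifs with e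
    · subst e
      rw [two_smul]
      noncomm_ring
    · noncomm_ring
  simp only [q, Finset.sum_mul, Finset.mul_sum, h, Finset.sum_add_distrib, Finset.sum_ite_eq,
    Finset.mem_univ, if_true]

theorem x_q (a : Fin 3) : β.x a * β.q = β.q * β.x a := by
  simp only [q, Finset.sum_mul, Finset.mul_sum]
  exact Finset.sum_congr rfl fun b _ => by rw [← mul_assoc, β.xx a, mul_assoc, β.xx a, mul_assoc]

theorem lp2_p (a : Fin 3) : β.lp2 * β.p a = β.p a * β.lp2 := by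
  simp only [lp2, Finset.sum_mul, Finset.mul_sum]
  exact Finset.sum_congr rfl fun b _ => by rw [mul_assoc, β.pp b a, ← mul_assoc, β.pp b a, mul_assoc]

theorem q_μ (a : Fin 3) : β.q * β.μ a = β.μ a * β.q := by
  have h : ∀ a b, β.x a * β.p b * β.q = β.q * (β.x a * β.p b) + (2 : ℂ) • (β.x a * β.x b) :=
    fun a b => by rw [mul_assoc, p_q, mul_add, ← mul_assoc, x_q, mul_assoc, mul_smul_comm]
  rw [μ, sub_mul, mul_sub, h, h, β.xx (a + 1)]
  abel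

theorem lp2_μ (a : Fin 3) : β.lp2 * β.μ a = β.μ a * β.lp2 := by
  have h : ∀ a b, β.lp2 * (β.x a * β.p b) = β.x a * β.p b * β.lp2 + (2 : ℂ) • (β.p a * β.p b) :=
    fun a b => by rw [← mul_assoc, lp2_x, add_mul, mul_assoc, lp2_p, ← mul_assoc, smul_mul_assoc]
  rw [μ, sub_mul, mul_sub, h, h, β.pp (a + 1)]
  abel

theorem eu_μ (a : Fin 3) : β.eu * β.μ a = β.μ a * β.eu := by
  have h : ∀ a b, β.eu * (β.x a * β.p b) = β.x a * β.p b * β.eu := fun a b => by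
    rw [← mul_assoc, eu_x, add_mul, mul_assoc, eu_p, mul_sub, sub_add_cancel, mul_assoc]
  rw [μ, sub_mul, mul_sub, h, h]

variable (g : Gh W)

/-- The invariants with `k` ghosts. -/
def A (k : ℕ) : Submodule ℂ B :=
  (β.τ g.N).eigenspace (k : ℂ) ⊓ ⨅ c, LinearMap.ker (ad (β.μ c) + β.τ (g.l c))

theorem mem_A {k : ℕ} {z : B} : z ∈ β.A g k ↔ β.τ g.N z = (k : ℂ) • z ∧
    ∀ c, ad (β.μ c) z + β.τ (g.l c) z = 0 := by
  rw [A, Submodule.mem_inf, End.mem_eigenspace_iff, Submodule.mem_iInf]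
  rfl

theorem A_of {T : End ℂ B} (h1 : ∀ S z, β.τ S (T z) = T (β.τ S z))
    (h2 : ∀ c z, ad (β.μ c) (T z) = T (ad (β.μ c) z)) (k : ℕ) : ∀ z ∈ β.A g k, T z ∈ β.A g k := by
  intro z hz
  rw [mem_A] at hz ⊢
  exact ⟨by rw [h1, hz.1, map_smul], fun c => by rw [h1, h2, ← map_add, hz.2, map_zero]⟩

/-- The differential. -/
def dif (δ : End ℂ W) : End ℂ B :=
  ∑ a, LinearMap.mulRight ℂ (β.μ a) * β.τ (g.ι a) + β.τ δ

theorem dif_Φ (δ : End ℂ W) (f : PP) (w : W) : β.dif g δ (β.Φ (f ⊗ₜ w)) =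
    ∑ a, β.Φ (f ⊗ₜ g.ι a w) * β.μ a + β.Φ (f ⊗ₜ δ w) := by
  simp only [dif, LinearMap.add_apply, LinearMap.sum_apply, End.mul_apply, τ_Φ,
    LinearMap.mulRight_apply]

theorem ad_cm {b : B} {T : End ℂ PP} (h : ad b = β.σ T) (hb : ∀ a, b * β.μ a = β.μ a * b)
    (δ : End ℂ W) : (∀ S z, β.τ S (ad b z) = ad b (β.τ S z)) ∧
      (∀ c z, ad (β.μ c) (ad b z) = ad b (ad (β.μ c) z)) ∧
      ∀ z, β.dif g δ (ad b z) = ad b (β.dif g δ z) := by
  have h1 : ∀ S z, β.τ S (ad b z) = ad b (β.τ S z) := fun S z => by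
    rw [h]
    exact (LinearMap.congr_fun (β.σ_τ T S) z).symm
  refine ⟨h1, fun c z => ?_, fun z => ?_⟩
  · simp only [ad_apply, mul_sub, sub_mul, mul_assoc, hb]
    rw [← mul_assoc b (β.μ c), hb, mul_assoc]
    abel
  · simp only [dif, LinearMap.add_apply, LinearMap.sum_apply, End.mul_apply, h1, map_add, map_sum,
      LinearMap.mulRight_apply]
    congr 1
    exact Finset.sum_congr rfl fun a _ => by simp only [ad_apply, sub_mul, mul_assoc, hb]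

theorem dif_eq (δ : End ℂ W) : β.dif g δ = β.cj g.d0 +
    (∑ a, β.σ (mK (a + 2) * dK (a + 1) - mK (a + 1) * dK (a + 2)) * β.τ (g.ι a) + β.τ δ) := by
  rw [dif, ← add_assoc, Gh.d0, map_sum, ← Finset.sum_add_distrib]
  congr 1
  refine Finset.sum_congr rfl fun a _ => ?_
  rw [r_μ, add_mul]
  congr 1
  exact β.ext fun f w => by rw [End.mul_apply, τ_Φ, σ_Φ, cj_Φ, map_tmul]

theorem eE : β.σ (-dE.toLinearMap) + β.σ ((-2⁻¹ : ℂ) • ∑ a, dK a * dK a) =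
    (2⁻¹ : ℂ) • ad β.q := by
  rw [ad_q, ← map_add, ← map_add, ← map_smul]
  exact congrArg β.σ (by module)

theorem eF : β.σ (-dF.toLinearMap) + β.σ ((-2⁻¹ : ℂ) • ∑ a, dX a * dX a) =
    (-2⁻¹ : ℂ) • ad β.lp2 := by
  rw [ad_lp2, ← map_add, ← map_add, ← map_smul]
  exact congrArg β.σ (by module)

theorem nil {c : Fin 3 ⊕ Fin 3 → ℕ} {T T' : End ℂ PP} (h : Dg (P286E17.eu c).toLinearMap T (-1))
    (h' : Dg (P286E17.eu c).toLinearMap T' (-2)) (z : B) : ∃ n, ((β.σ T + β.σ T') ^ n) z = 0 :=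
  (β.nd_σ (nd_eu c)).nil (fun r x hx =>
    add_mem ((β.dg_σ h).fl' hx (by omega)) ((β.dg_σ h').fl' hx (by omega))) z

theorem hH (z : B) : z ∈ ⨆ μ : ℂ, (ad β.eu).eigenspace μ := by
  obtain ⟨z, rfl⟩ := β.Φ.surjective z
  induction z using TensorProduct.induction_on with
  | zero => simp
  | add z z' h h' => rw [map_add]; exact add_mem h h'
  | tmul f w =>
    have st : ∀ (T : End ℂ B) (s : ℤ), Dg (ad β.eu) T s → ∀ z ∈ ⨆ μ : ℂ, (ad β.eu).eigenspace μ,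
        T z ∈ ⨆ μ : ℂ, (ad β.eu).eigenspace μ := fun T s hT z hz =>
      Submodule.iSup_induction (motive := fun z => T z ∈ ⨆ μ : ℂ, (ad β.eu).eigenspace μ) _ hz
        (fun μ z hz => Submodule.mem_iSup_of_mem (μ + s) (End.mem_eigenspace_iff.2 (by
          rw [hT, End.mem_eigenspace_iff.1 hz, map_smul, add_smul])))
        (by simp) fun p q hp hq => by rw [map_add]; exact add_mem hp hq
    induction f using MvPolynomial.induction_on with
    | C z =>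
      refine Submodule.mem_iSup_of_mem 0 (End.mem_eigenspace_iff.2 ?_)
      rw [ad_eu, σ_Φ, zero_smul]
      simp [dX, dK, derivation_C]
    | add p q hp hq => rw [add_tmul, map_add]; exact add_mem hp hq
    | mul_X p i hp =>
      rcases i with a | a
      · rw [mul_comm, show (X (.inl a) : PP) = xv a from rfl, β.Φx]
        refine st (LinearMap.mulLeft ℂ (β.x a)) 1 (fun z => ?_) _ hp
        simp only [ad_apply, LinearMap.mulLeft_apply, ← mul_assoc, eu_x, Int.cast_one, one_smul]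
        noncomm_ring
      · rw [mul_comm, show (X (.inr a) : PP) = kv a from rfl, β.Φk]
        refine st (LinearMap.mulRight ℂ (β.p a)) (-1) (fun z => ?_) _ hp
        simp only [ad_apply, LinearMap.mulRight_apply, sub_mul, mul_assoc, eu_p, Int.cast_neg,
          Int.cast_one, neg_smul, one_smul]
        noncomm_ring

/-- The hypotheses on the invariant complex. -/
structure Hyp (δ : End ℂ W) : Prop where
  dd : ∀ k, ∀ z ∈ β.A g k, β.dif g δ (β.dif g δ z) = 0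
  dA : ∀ k, ∀ z ∈ β.A g (k + 1), β.dif g δ z ∈ β.A g k
  bq : ∀ k, ∀ z ∈ β.A g k, β.dif g δ z = 0 → ∃ b ∈ β.A g (k + 1), β.dif g δ b = ad β.q z
  be : ∀ k, ∀ z ∈ β.A g k, β.dif g δ z = 0 → ∃ b ∈ β.A g (k + 1), β.dif g δ b = ad β.eu z

variable {β g} {δ : End ℂ W}

/-- The data of the filtered complex. -/
def Hyp.cd (h : β.Hyp g δ) : Cd B where
  u := β.σ Eu
  nd := β.nd_σ (nd_eu _)
  d0 := β.cj g.d0
  d1 := ∑ a, β.σ (mK (a + 2) * dK (a + 1) - mK (a + 1) * dK (a + 2)) * β.τ (g.ι a) + β.τ δ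
  E0 := β.σ (-dE.toLinearMap)
  E1 := β.σ ((-2⁻¹ : ℂ) • ∑ a, dK a * dK a)
  F0 := β.σ (-dF.toLinearMap)
  F1 := β.σ ((-2⁻¹ : ℂ) • ∑ a, dX a * dX a)
  H := ad β.eu
  gd0 := β.dg_cj (Dg.sum _ fun a => (dg_mul _ (by exact_mod_cast eu_mo a)).ten _)
  gd1 := (Dg.sum _ fun a => (β.dg_σ ((dg_kd _ _).sub (dg_kd _ _))).mul (β.dg_τ _ _) rfl).add
    (β.dg_τ _ _)
  gE0 := β.dg_σ (dg_E _ fun _ => by simp)
  gE1 := β.dg_σ (dg_KK _ fun _ => rfl)
  gF0 := β.dg_σ (dg_F _ fun _ => by simp)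
  gF1 := β.dg_σ (dg_XX _ fun _ => rfl)
  gH := by
    rw [ad_eu]
    exact β.dg_σ (Dg.sum _ fun a => (dg_xd a a).sub (dg_kd a a))
  sl := by rw [eE, eF]; exact β.sl
  nE := β.nil (c := Sum.elim 0 1) (dg_E _ fun _ => by simp) (dg_KK _ fun _ => rfl)
  nF := β.nil (c := Sum.elim 1 0) (dg_F _ fun _ => by simp) (dg_XX _ fun _ => rfl)
  hH := β.hH
  dE z := by
    rw [eE, ← dif_eq, LinearMap.smul_apply, LinearMap.smul_apply, map_smul,
      (β.ad_cm g (β.ad_q.trans (map_add _ _ _).symm) β.q_μ δ).2.2]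
  dF z := by
    rw [eF, ← dif_eq, LinearMap.smul_apply, LinearMap.smul_apply, map_smul,
      (β.ad_cm g (β.ad_lp2.trans (map_add _ _ _).symm) β.lp2_μ δ).2.2]
  dH z := by rw [← dif_eq, (β.ad_cm g β.ad_eu β.eu_μ δ).2.2]
  A := β.A g
  dd := by rw [← dif_eq]; exact h.dd
  uA := β.A_of g (fun S z => (LinearMap.congr_fun (β.σ_τ Eu S) z).symm) fun c z => by
    rw [ad_μ, β.dg_σ (dg_ro c) z, Int.cast_zero, zero_smul, add_zero]
  EA k z hz := by
    have h1 := β.ad_cm g (β.ad_q.trans (map_add _ _ _).symm) β.q_μ δ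
    rw [eE]
    exact Submodule.smul_mem _ _ (β.A_of g h1.1 h1.2.1 k z hz)
  FA k z hz := by
    have h1 := β.ad_cm g (β.ad_lp2.trans (map_add _ _ _).symm) β.lp2_μ δ
    rw [eF]
    exact Submodule.smul_mem _ _ (β.A_of g h1.1 h1.2.1 k z hz)
  HA := β.A_of g (β.ad_cm g β.ad_eu β.eu_μ δ).1 (β.ad_cm g β.ad_eu β.eu_μ δ).2.1
  dA := by rw [← dif_eq]; exact h.dA
  kz k m hkm s hs h1 h2 h3 h4 := by
    obtain ⟨s, rfl⟩ := β.Φ.surjective s
    have e : ∀ c z, ad (β.μ c) (β.Φ z) + β.τ (g.l c) (β.Φ z) = β.Φ (g.L c z) := fun c z => by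
      rw [ad_μ, σ_eq, τ_eq, cj_Φ, cj_Φ, ← map_add]
      rfl
    rw [mem_A] at hs
    rw [map_neg, LinearMap.neg_apply, neg_eq_zero, σ_eq, cj_Φ, β.Φ.map_eq_zero_iff] at h2 h3
    rw [cj_Φ, β.Φ.map_eq_zero_iff] at h4
    obtain ⟨b, k1, k2, k3, k4⟩ := g.kz k m hkm s
      (β.Φ.injective (by rw [map_smul, ← hs.1, τ_eq, cj_Φ]))
      (fun c => β.Φ.map_eq_zero_iff.1 ((e c s).symm.trans (hs.2 c)))
      (β.Φ.injective (by rw [map_smul, ← h1, σ_eq, cj_Φ])) h2 h3 h4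
    refine ⟨β.Φ b, (β.mem_A g).2 ⟨?_, fun c => ?_⟩, ?_, ?_⟩
    · rw [τ_eq, cj_Φ, k1, map_smul]
    · rw [e, k2, map_zero]
    · rw [σ_eq, cj_Φ, k3, map_smul]
    · rw [cj_Φ, k4]
  bE k z hz hd := by
    rw [← dif_eq] at hd ⊢
    obtain ⟨b, hb, e⟩ := h.bq k z hz hd
    exact ⟨(2⁻¹ : ℂ) • b, Submodule.smul_mem _ _ hb, by rw [eE, map_smul, e]; rfl⟩
  bH := by rw [← dif_eq]; exact h.be

/-- Exactness in the positive degrees. -/
theorem Hyp.exact (h : β.Hyp g δ) (k : ℕ) {z : B} (hz : z ∈ β.A g (k + 1))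
    (hd : β.dif g δ z = 0) : ∃ b ∈ β.A g (k + 2), β.dif g δ b = z := by
  rw [dif_eq] at hd ⊢
  exact h.cd.exact k hz hd

/-- In degree `0` every class is represented by a constant. -/
theorem Hyp.span (h : β.Hyp g δ) {z : B} (hz : z ∈ β.A g 0) (hd : β.dif g δ z = 0) :
    ∃ b ∈ β.A g 1, ∃ w, z - β.dif g δ b = β.Φ (1 ⊗ₜ w) := by
  rw [dif_eq] at hd
  obtain ⟨b, hb, e⟩ := h.cd.span hz hd
  refine ⟨b, hb, ?_⟩
  rw [dif_eq]
  obtain ⟨y, hy⟩ := β.Φ.surjective (z - h.cd.d b)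
  have e' : Eu.rTensor W y = 0 := β.Φ.map_eq_zero_iff.1 (by rw [← cj_Φ, hy]; exact e)
  obtain ⟨t, rfl⟩ := ker_ten (f := Algebra.linearMap ℂ PP) (fun v h _ => const_of_Eu h) e' e'
  obtain ⟨w, rfl⟩ := (TensorProduct.lid ℂ W).symm.surjective t
  exact ⟨w, hy.symm.trans (by simp)⟩

/-- A constant which is a boundary vanishes. -/
theorem Hyp.inj (h : β.Hyp g δ) {w : W} {b : B} (hb : b ∈ β.A g 1)
    (e : β.dif g δ b = β.Φ (1 ⊗ₜ w)) : β.Φ (1 ⊗ₜ w) = 0 := by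
  rw [dif_eq] at e
  refine h.cd.inj ?_ ?_ ?_ hb e
  · change β.σ Eu _ = 0
    rw [σ_Φ]
    simp [Eu]
  · change β.σ _ _ + β.σ _ _ = 0
    rw [σ_Φ, σ_Φ]
    simp [dK]
  · change ad β.eu _ = 0
    rw [ad_eu, σ_Φ]
    simp [dX, dK]

end BW

end

end Vale.Agent.P286E17
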