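import Vale.Agent.P286E17.Asm
import Vale.Agent.P286E99.B0

/-!
# The augmentation of a DG algebra with cohomology `ℂ`
-/

set_option linter.all false

namespace Vale.Agent.P286E17

open TensorProduct Module Vale.Agent.P286.H847 Vale.Agent.P286.H710 Vale.Agent.P286EK
  Vale.Agent.P286E48 Vale.Agent.P286E99 Vale.Agent.P286ES

noncomputable section

theorem aug (A : DGA) (pos : ∀ m, 0 < m → ∀ x ∈ A.gr m, x = 0)
    (ex : ∀ m, m < 0 → ∀ x ∈ A.gr m, A.d x = 0 → ∃ y ∈ A.gr (m - 1), A.d y = x)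
    (sp : ∀ x ∈ A.gr 0, ∃ c : ℂ, ∃ y ∈ A.gr (-1), A.d y = x - c • 1)
    (inj : ∀ c : ℂ, ∀ y ∈ A.gr (-1), A.d y = c • 1 → c = 0) :
    ∃ χ : AHom A (DGA.ofAlg ℂ), GD.Qis χ.n.hom := by
  obtain ⟨P⟩ := Prj.nonempty (M := A.G) A.int
  let K : Submodule ℂ A.R := ((A.gr (-1)).map A.d).comap (P.P 0)
  have k1 : ∀ m, m ≠ 0 → ∀ x ∈ A.gr m, x ∈ K := fun m h x hx =>
    ⟨0, zero_mem _, (map_zero _).trans (P.ne m 0 h x hx).symm⟩
  have k2 : ∀ y ∈ A.gr (-1), A.d y ∈ K := fun y hy => ⟨y, hy, (P.eq 0 _ (A.dgr _ _ hy)).symm⟩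
  have k3 : ∀ c : ℂ, c • (1 : A.R) ∈ K → c = 0 := fun c ⟨y, hy, e⟩ =>
    inj c y hy (e.trans (P.eq 0 _ (Submodule.smul_mem _ c A.one_gr)))
  have k4 : ∀ x, ∃ c : ℂ, x - c • 1 ∈ K := fun x => by
    induction x using A.ind with
    | zero => exact ⟨0, by simp⟩
    | hom m x hx =>
      by_cases h : m = 0
      · obtain ⟨c, y, hy, e⟩ := sp x (h ▸ hx)
        exact ⟨c, e ▸ k2 y hy⟩
      · exact ⟨0, by rw [zero_smul, sub_zero]; exact k1 m h x hx⟩
    | add x y hx hy =>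
      obtain ⟨a, ha⟩ := hx
      obtain ⟨b, hb⟩ := hy
      exact ⟨a + b, by rw [add_smul, add_sub_add_comm]; exact add_mem ha hb⟩
  have p0 : ∀ x z, P.P 0 (x * z) = P.P 0 x * P.P 0 z := fun x z => by
    induction x using A.ind with
    | zero => simp
    | add x y hx hy => simp only [add_mul, map_add, hx, hy]
    | hom m x hx =>
      induction z using A.ind with
      | zero => simp
      | add z y hz hy => simp only [mul_add, map_add, hz, hy]
      | hom n z hz =>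
        have h := A.mul_gr _ _ _ _ hx hz
        rcases lt_trichotomy m 0 with a | rfl | a
        · rcases lt_or_ge 0 n with b | b
          · simp [pos n b z hz]
          · rw [P.ne _ 0 (by omega) _ h, P.ne m 0 a.ne x hx, zero_mul]
        · by_cases b : n = 0
          · subst b
            rw [P.eq 0 _ h, P.eq 0 x hx, P.eq 0 z hz]
          · rw [P.ne _ 0 (by omega) _ h, P.ne n 0 b z hz, mul_zero]
        · simp [pos m a x hx]
  have k5 : ∀ x ∈ K, ∀ z, x * z ∈ K := fun x ⟨y, hy, e⟩ z =>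
    ⟨y * P.P 0 z, A.mul_gr _ _ _ _ hy (P.mem 0 z), by
      rw [p0, ← e, A.leib, pos 1 one_pos _ (A.dgr 0 _ (P.mem 0 z)), mul_zero, add_zero]⟩
  choose χ hχ using k4
  have u : ∀ x c, x - c • 1 ∈ K → χ x = c := fun x c h => by
    have h' := sub_mem h (hχ x)
    rw [sub_sub_sub_cancel_left, ← sub_smul] at h'
    exact sub_eq_zero.1 (k3 _ h')
  have z : ∀ x ∈ K, χ x = 0 := fun x h => u x 0 (by rwa [zero_smul, sub_zero])
  let f : A.R →ₐ[ℂ] ℂ :=
    { toFun := χ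
      map_one' := u 1 1 (by simp)
      map_mul' := fun x y => u _ _ (by
        have h := add_mem (k5 _ (hχ x) y) (K.smul_mem (χ x) (hχ y))
        rwa [sub_mul, smul_mul_assoc, one_mul, smul_sub, smul_smul, sub_add_sub_cancel] at h)
      map_zero' := z 0 (zero_mem _)
      map_add' := fun x y => u _ _ (by
        rw [add_smul, add_sub_add_comm]; exact add_mem (hχ x) (hχ y))
      commutes' := fun c => u _ _ (by simp [Algebra.algebraMap_eq_smul_one]) }
  have dK : ∀ x, A.d x ∈ K := fun x => by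
    induction x using A.ind with
    | zero => simp
    | hom m x hx =>
      by_cases h : m = -1
      · exact k2 x (h ▸ hx)
      · exact k1 (m + 1) (by omega) _ (A.dgr m x hx)
    | add x y hx hy => rw [map_add]; exact add_mem hx hy
  refine ⟨⟨f, fun x => z _ (dK x), fun m x hx => ?_⟩, fun m => ⟨?_, fun y hy _ => ?_⟩⟩
  · by_cases h : m = 0
    · exact h ▸ ofAlg_mem (E := ℂ) _
    · exact (congrArg (· ∈ (DGA.ofAlg ℂ).gr m) (z x (k1 m h x hx))).mpr (zero_mem _)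
  · rintro x hx hd ⟨y, -, e⟩
    rcases lt_trichotomy m 0 with a | rfl | a
    · exact ex m a x hx hd
    · obtain ⟨c, y, hy, e'⟩ := sp x hx
      have : c = 0 := (u x c (e' ▸ k2 y hy)).symm.trans e.symm
      exact ⟨y, hy, by rw [e', this, zero_smul, sub_zero]⟩
    · exact ⟨0, zero_mem _, (map_zero _).trans (pos m a x hx).symm⟩
  · by_cases h : m = 0
    · subst h
      refine ⟨(show ℂ from y) • 1, Submodule.smul_mem _ _ A.one_gr,
        (map_smul A.d _ _).trans (by rw [A.d_one, smul_zero]), 0, zero_mem _, ?_⟩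
      exact (sub_eq_zero.2 (u _ _ (by simp)).symm).symm
    · refine ⟨0, zero_mem _, map_zero _, 0, zero_mem _, ?_⟩
      exact (sub_eq_zero.2 ((ofAlg_zero (E := ℂ) h hy).trans (map_zero f).symm)).symm

variable {B W : Type} [Ring B] [Algebra ℂ B] [AddCommGroup W] [Module ℂ W]

/-- A weighted DG algebra which is the invariant complex. -/
structure Emb (β : BW B W) (g : Gh W) (δ : End ℂ W) (A : WA) (e : ℂ) where
  io : A.A.R →ₐ[ℂ] B
  inj : Function.Injective io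
  io_d : ∀ a, io (A.A.d a) = β.dif g δ (io a)
  mem : ∀ (k : ℕ), ∀ a ∈ A.A.gr (-k), io a ∈ β.A g k
  onto : ∀ (k : ℕ), ∀ z ∈ β.A g k, ∃ a ∈ A.A.gr (-k), io a = z
  pos : ∀ m, 0 < m → ∀ a ∈ A.A.gr m, a = 0
  io_q : io A.q = β.q
  io_E : io A.E = β.eu
  hq : ∃ b ∈ A.A.gr (-1), A.A.d b = A.q
  hE : ∃ b ∈ A.A.gr (-1), A.A.d b = A.E - e • 1
  sch : ∀ a ∈ A.A.gr 0, ∀ w, io a = β.Φ (1 ⊗ₜ w) → ∃ c : ℂ, a = c • 1
  one : ∃ w, β.Φ (1 ⊗ₜ w) = 1
  nt : (1 : B) ≠ 0

namespace Emb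

variable {β : BW B W} {g : Gh W} {δ : End ℂ W} {A : WA} {e : ℂ} (h : Emb β g δ A e)

theorem bd {b : A.A.R} (hb : b ∈ A.A.gr (-1)) (k : ℕ) (z : B) (hz : z ∈ β.A g k)
    (hd : β.dif g δ z = 0) : ∃ c ∈ β.A g (k + 1), β.dif g δ c = ad (h.io (A.A.d b)) z := by
  obtain ⟨a, ha, rfl⟩ := h.onto k z hz
  have da : A.A.d a = 0 := h.inj (by rw [h.io_d, hd, map_zero])
  have ds : A.A.d (A.A.sg a) = 0 := by rw [A.A.d_sg, da, map_zero, neg_zero]
  refine ⟨h.io (b * a - A.A.sg a * b), h.mem _ _ (sub_mem ?_ ?_), ?_⟩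
  · convert A.A.mul_gr _ _ _ _ hb ha using 2
    push_cast
    ring
  · convert A.A.mul_gr _ _ _ _ (A.A.sg_mem ha) hb using 2
    push_cast
    ring
  · rw [← h.io_d, map_sub, A.A.leib, A.A.leib, da, ds, A.A.sg_sg, mul_zero, zero_mul, add_zero,
      zero_add, map_sub, map_mul, map_mul, ad_apply]

include h in
theorem hyp : β.Hyp g δ where
  dd k z hz := by
    obtain ⟨a, -, rfl⟩ := h.onto k z hz
    rw [← h.io_d, ← h.io_d, A.A.dd, map_zero]
  dA k z hz := by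
    obtain ⟨a, ha, rfl⟩ := h.onto _ z hz
    rw [← h.io_d]
    refine h.mem _ _ ?_
    convert A.A.dgr _ _ ha using 2
    push_cast
    ring
  bq k z hz hd := by
    obtain ⟨b, hb, e⟩ := h.hq
    rw [← h.io_q, ← e]
    exact h.bd hb k z hz hd
  be k z hz hd := by
    obtain ⟨b, hb, e⟩ := h.hE
    obtain ⟨c, hc, e'⟩ := h.bd hb k z hz hd
    refine ⟨c, hc, e'.trans ?_⟩
    rw [e, map_sub, map_smul, map_one, h.io_E, ad_apply, ad_apply, sub_mul, mul_sub, smul_mul_assoc,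
      mul_smul_comm, one_mul, mul_one, sub_sub_sub_cancel_right]

include h in
theorem fm : ∃ χ : WH A (C0 e), χ.φ.f 1 = 1 ∧ GD.Qis χ.φ.hom ∧ MorH χ.φ := by
  obtain ⟨χ, hχ⟩ := aug A.A h.pos (fun m hm x hx hd => by
      obtain ⟨k, rfl⟩ : ∃ k : ℕ, m = -((k + 1 : ℕ) : ℤ) := ⟨(-m - 1).toNat, by omega⟩
      obtain ⟨b, hb, e⟩ := h.hyp.exact k (h.mem _ x hx) (by rw [← h.io_d, hd, map_zero])
      obtain ⟨a, ha, rfl⟩ := h.onto _ b hb
      refine ⟨a, ?_, h.inj ((h.io_d a).trans e)⟩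
      convert ha using 2
      push_cast
      ring)
    (fun x hx => by
      obtain ⟨b, hb, w, e⟩ := h.hyp.span (h.mem 0 x hx)
        (by rw [← h.io_d, h.pos 1 one_pos _ (A.A.dgr 0 x hx), map_zero])
      obtain ⟨a, ha, rfl⟩ := h.onto _ b hb
      rw [← h.io_d, ← map_sub] at e
      obtain ⟨c, hc⟩ := h.sch _ (sub_mem hx (A.A.dgr _ a ha)) w e
      exact ⟨c, a, ha, by rw [← hc, sub_sub_cancel]⟩)
    fun c y hy e => by
      obtain ⟨w, hw⟩ := h.one
      have e1 : β.Φ (1 ⊗ₜ (c • w)) = c • (1 : B) := by rw [tmul_smul, map_smul, hw]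
      have e2 := h.hyp.inj (w := c • w) (h.mem 1 y hy)
        (by rw [← h.io_d, e, map_smul, map_one, e1])
      rw [e1] at e2
      exact (smul_eq_zero.1 e2).resolve_right h.nt
  obtain ⟨b, -, hb⟩ := h.hq
  obtain ⟨b', -, hb'⟩ := h.hE
  have z : ∀ x, χ.f (A.A.d x) = 0 := χ.comm
  refine ⟨WH.ofA χ ?_ (hb ▸ z b), map_one χ.f, hχ, morH_of_qis _ (map_one χ.f) hχ⟩
  have h1 := z b'
  rw [hb', map_sub, map_smul, map_one, sub_eq_zero] at h1
  exact h1.trans (mul_one e)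

end Emb

end

end Vale.Agent.P286E17
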