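import Vale.Agent.P286E17.F2

/-!
# A filtered complex with a null-homotopic action of `sl₂`
-/

set_option linter.all false

namespace Vale.Agent.P286E17

open Vale.Agent.P286ES Module

noncomputable section

variable {M : Type*} [AddCommGroup M] [Module ℂ M]

/-- The sum of the eigenspaces for the integers `< r`. -/
def Fl (u : End ℂ M) (r : ℤ) : Submodule ℂ M := ⨆ j : ℤ, ⨆ _ : j < r, u.eigenspace (j : ℂ)

/-- The operator `T` has the degree `s`. -/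
def Dg (u T : End ℂ M) (s : ℤ) : Prop := ∀ x, u (T x) = T (u x) + (s : ℂ) • T x

/-- The operator is diagonalisable with natural eigenvalues. -/
def Nd (u : End ℂ M) : Prop := ∀ x, x ∈ ⨆ j : ℕ, u.eigenspace (j : ℂ)

variable {u T : End ℂ M} {r s : ℤ}

theorem mem_Fl {j : ℤ} (h : j < r) {x : M} (hx : u x = (j : ℂ) • x) : x ∈ Fl u r :=
  le_iSup₂_of_le (f := fun (j : ℤ) (_ : j < r) => u.eigenspace (j : ℂ)) j h le_rfl
    (End.mem_eigenspace_iff.2 hx)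

theorem Fl_le {P : Submodule ℂ M} (h : ∀ j : ℤ, j < r → ∀ x, u x = (j : ℂ) • x → x ∈ P) :
    Fl u r ≤ P := iSup₂_le fun j hj x hx => h j hj x (End.mem_eigenspace_iff.1 hx)

theorem Fl_mono (h : r ≤ s) : Fl u r ≤ Fl u s :=
  Fl_le fun _ hj _ hx => mem_Fl (hj.trans_le h) hx

theorem Dg.eig (h : Dg u T s) {j : ℤ} {x : M} (hx : u x = (j : ℂ) • x) :
    u (T x) = ((j + s : ℤ) : ℂ) • T x := by
  rw [h, hx, map_smul, ← add_smul, Int.cast_add]

theorem Dg.fl (h : Dg u T s) {x : M} (hx : x ∈ Fl u r) : T x ∈ Fl u (r + s) :=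
  Fl_le (P := (Fl u (r + s)).comap T) (fun _ hj _ hx => mem_Fl (by omega) (h.eig hx)) hx

theorem Dg.fl' (h : Dg u T s) {x : M} (hx : x ∈ Fl u r) {t : ℤ} (ht : r + s ≤ t) :
    T x ∈ Fl u t := Fl_mono ht (h.fl hx)

theorem Dg.add {T' : End ℂ M} (h : Dg u T s) (h' : Dg u T' s) : Dg u (T + T') s := fun x => by
  simp only [LinearMap.add_apply, map_add, h x, h' x, smul_add]
  abel

theorem Dg.smul (h : Dg u T s) (c : ℂ) : Dg u (c • T) s := fun x => by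
  simp only [LinearMap.smul_apply, map_smul, h x, smul_add]
  rw [smul_comm c]

theorem Dg.neg (h : Dg u T s) : Dg u (-T) s := by
  rw [← neg_one_smul ℂ T]
  exact h.smul _

theorem Dg.sub {T' : End ℂ M} (h : Dg u T s) (h' : Dg u T' s) : Dg u (T - T') s := by
  rw [sub_eq_add_neg]
  exact h.add h'.neg

theorem Dg.mul {T' : End ℂ M} {s' : ℤ} (h : Dg u T s) (h' : Dg u T' s') {t : ℤ}
    (e : t = s + s') : Dg u (T * T') t := fun x => by
  simp only [End.mul_apply, h (T' x), h' x, map_add, map_smul, e, Int.cast_add, add_smul]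
  abel

theorem Dg.sum {ι : Type} (t : Finset ι) {T : ι → End ℂ M} (h : ∀ i, Dg u (T i) s) :
    Dg u (∑ i ∈ t, T i) s := by
  classical
  induction t using Finset.induction_on with
  | empty => intro x; simp
  | insert i t hi ih => rw [Finset.sum_insert hi]; exact (h i).add ih

theorem eq_zero_of_Fl {x : M} (hx : u x = (r : ℂ) • x) (h : x ∈ Fl u r) : x = 0 := by
  have h1 := (End.eigenspaces_iSupIndep u) (r : ℂ)
  refine Submodule.disjoint_def.1 h1 x (End.mem_eigenspace_iff.2 hx) (Fl_le ?_ h)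
  intro j hj y hy
  have hne : (j : ℂ) ≠ r := fun e => hj.ne (Int.cast_injective e)
  exact le_iSup₂_of_le (f := fun (μ : ℂ) (_ : μ ≠ r) => u.eigenspace μ) j hne le_rfl
    (End.mem_eigenspace_iff.2 hy)

theorem Fl_split {x : M} (h : x ∈ Fl u (r + 1)) :
    ∃ y, u y = (r : ℂ) • y ∧ x - y ∈ Fl u r := by
  have h1 : x ∈ u.eigenspace (r : ℂ) ⊔ Fl u r := Fl_le (fun j hj y hy => by
    by_cases e : j = r
    · subst e
      exact Submodule.mem_sup_left (End.mem_eigenspace_iff.2 hy)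
    · exact Submodule.mem_sup_right (mem_Fl (by omega) hy)) h
  obtain ⟨y, hy, z, hz, rfl⟩ := Submodule.mem_sup.1 h1
  exact ⟨y, End.mem_eigenspace_iff.1 hy, by simpa using hz⟩

theorem Nd.ex (h : Nd u) (x : M) : ∃ m : ℕ, x ∈ Fl u m := by
  refine Submodule.iSup_induction (motive := fun x => ∃ m : ℕ, x ∈ Fl u m) _ (h x)
    (fun j y hy => ⟨j + 1, mem_Fl (j := j) (by omega) ?_⟩) ⟨0, zero_mem _⟩ ?_
  · exact_mod_cast End.mem_eigenspace_iff.1 hy
  · rintro y z ⟨m, hm⟩ ⟨k, hk⟩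
    exact ⟨max m k, add_mem (Fl_mono (by omega) hm) (Fl_mono (by omega) hk)⟩

theorem Nd.zero (h : Nd u) {x : M} (hx : x ∈ Fl u 0) : x = 0 := by
  refine (Submodule.mem_bot ℂ).1 (Fl_le (fun j hj y hy => ?_) hx)
  have h1 := (End.eigenspaces_iSupIndep u) (j : ℂ)
  refine Submodule.disjoint_def.1 h1 y (End.mem_eigenspace_iff.2 hy)
    ((?_ : (⨆ k : ℕ, u.eigenspace (k : ℂ)) ≤ _) (h y))
  refine iSup_le fun k => ?_
  have hne : ((k : ℤ) : ℂ) ≠ j := fun e => by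
    have := Int.cast_injective e
    omega
  exact le_iSup₂_of_le (f := fun (μ : ℂ) (_ : μ ≠ j) => u.eigenspace μ) (k : ℂ)
    (by exact_mod_cast hne) le_rfl

theorem Nd.nil (h : Nd u) (hT : ∀ r : ℤ, ∀ x ∈ Fl u (r + 1), T x ∈ Fl u r) (x : M) :
    ∃ n, (T ^ n) x = 0 := by
  obtain ⟨m, hm⟩ := h.ex x
  induction m generalizing x with
  | zero => exact ⟨0, by simpa using h.zero hm⟩
  | succ m ih =>
    obtain ⟨n, hn⟩ := ih (T x) (hT m x (by exact_mod_cast hm))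
    exact ⟨n + 1, by rw [pow_succ]; exact hn⟩

/-- The top component of an element of a stable subspace lies in the subspace. -/
theorem top_mem (h : Nd u) {A : Submodule ℂ M} (hA : ∀ x ∈ A, u x ∈ A) (m : ℕ) :
    ∀ x ∈ A, ∀ r : ℤ, ∀ y, u y = (r : ℂ) • y → (m : ℤ) ≤ r → x - y ∈ Fl u m → y ∈ A := by
  induction m with
  | zero =>
    intro x hx r y _ _ h1
    rwa [sub_eq_zero.1 (h.zero h1)] at hx
  | succ m ih =>
    intro x hx r y hy hr h1
    obtain ⟨z, hz, h2⟩ := Fl_split (r := m) (by exact_mod_cast h1)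
    have hne : (r : ℂ) - m ≠ 0 := by
      have : (r - m : ℤ) ≠ 0 := by omega
      exact_mod_cast this
    have e : u x - (m : ℂ) • x - ((r : ℂ) - m) • y =
        u (x - y - z) - (m : ℂ) • (x - y - z) := by
      rw [map_sub, map_sub, hy, hz, Int.cast_natCast]
      module
    have h3 := ih (u x - (m : ℂ) • x) (sub_mem (hA x hx) (A.smul_mem _ hx)) r
      (((r : ℂ) - m) • y) (by rw [map_smul, hy, smul_comm]) (by omega) (by
        rw [e]
        refine sub_mem ?_ (Submodule.smul_mem _ _ h2)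
        exact Dg.fl' (s := 0) (fun x => by simp) h2 (by omega))
    exact (A.smul_mem_iff hne).1 h3

/-- The data. -/
structure Cd (M : Type*) [AddCommGroup M] [Module ℂ M] where
  u : End ℂ M
  nd : Nd u
  d0 : End ℂ M
  d1 : End ℂ M
  E0 : End ℂ M
  E1 : End ℂ M
  F0 : End ℂ M
  F1 : End ℂ M
  H : End ℂ M
  gd0 : Dg u d0 2
  gd1 : Dg u d1 0
  gE0 : Dg u E0 0
  gE1 : Dg u E1 (-2)
  gF0 : Dg u F0 0
  gF1 : Dg u F1 (-2)
  gH : Dg u H 0
  sl : Sl (E0 + E1) (F0 + F1) H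
  nE : ∀ x, ∃ n, ((E0 + E1) ^ n) x = 0
  nF : ∀ x, ∃ n, ((F0 + F1) ^ n) x = 0
  hH : ∀ x, x ∈ ⨆ μ : ℂ, H.eigenspace μ
  dE : ∀ x, (d0 + d1) ((E0 + E1) x) = (E0 + E1) ((d0 + d1) x)
  dF : ∀ x, (d0 + d1) ((F0 + F1) x) = (F0 + F1) ((d0 + d1) x)
  dH : ∀ x, (d0 + d1) (H x) = H ((d0 + d1) x)
  A : ℕ → Submodule ℂ M
  dd : ∀ k, ∀ x ∈ A k, (d0 + d1) ((d0 + d1) x) = 0
  uA : ∀ k, ∀ x ∈ A k, u x ∈ A k
  EA : ∀ k, ∀ x ∈ A k, (E0 + E1) x ∈ A k
  FA : ∀ k, ∀ x ∈ A k, (F0 + F1) x ∈ A k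
  HA : ∀ k, ∀ x ∈ A k, H x ∈ A k
  dA : ∀ k, ∀ x ∈ A (k + 1), (d0 + d1) x ∈ A k
  kz : ∀ (k m : ℕ), k + m ≠ 0 → ∀ s ∈ A k, u s = (m : ℂ) • s → E0 s = 0 → F0 s = 0 → d0 s = 0 →
    ∃ b ∈ A (k + 1), u b = ((m : ℂ) - 2) • b ∧ d0 b = s
  bE : ∀ k, ∀ z ∈ A k, (d0 + d1) z = 0 → ∃ b ∈ A (k + 1), (d0 + d1) b = (E0 + E1) z
  bH : ∀ k, ∀ z ∈ A k, (d0 + d1) z = 0 → ∃ b ∈ A (k + 1), (d0 + d1) b = H z

namespace Cd

variable (c : Cd M)

/-- The differential. -/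
abbrev d : End ℂ M := c.d0 + c.d1

theorem E_fl {x : M} (h : x ∈ Fl c.u r) : (c.E0 + c.E1) x ∈ Fl c.u r :=
  add_mem (c.gE0.fl' h (by omega)) (c.gE1.fl' h (by omega))

theorem F_fl {x : M} (h : x ∈ Fl c.u r) : (c.F0 + c.F1) x ∈ Fl c.u r :=
  add_mem (c.gF0.fl' h (by omega)) (c.gF1.fl' h (by omega))

theorem top {T0 T1 : End ℂ M} {s s' : ℤ} (h0 : Dg c.u T0 s) (h1 : Dg c.u T1 s') (hs : s' < s)
    {x y : M} (hy : c.u y = (r : ℂ) • y) (h : x - y ∈ Fl c.u r)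
    (hT : (T0 + T1) x ∈ Fl c.u (r + s)) : T0 y = 0 := by
  refine eq_zero_of_Fl (h0.eig hy) ?_
  have e : T0 y = (T0 + T1) x - T0 (x - y) - T1 (x - y) - T1 y := by
    simp only [LinearMap.add_apply, map_sub]
    abel
  rw [e]
  exact sub_mem (sub_mem (sub_mem hT (h0.fl h)) (h1.fl' h (by omega)))
    (mem_Fl (by omega) (h1.eig hy))

theorem step (k m : ℕ) (hkm : k + m ≠ 0) {x : M} (hx : x ∈ c.A k) (h : x ∈ Fl c.u (m + 1))
    (hE : (c.E0 + c.E1) x = 0) (hF : (c.F0 + c.F1) x = 0) (hd : c.d x ∈ Fl c.u (m + 2)) :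
    ∃ b ∈ c.A (k + 1), x - c.d b ∈ Fl c.u m := by
  obtain ⟨y, hy, h1⟩ := Fl_split h
  obtain ⟨b, hb, h2, h3⟩ := c.kz k m hkm y (top_mem c.nd (c.uA k) m x hx m y hy le_rfl h1)
    (by exact_mod_cast hy) (c.top c.gE0 c.gE1 (by omega) hy h1 (by rw [hE]; exact zero_mem _))
    (c.top c.gF0 c.gF1 (by omega) hy h1 (by rw [hF]; exact zero_mem _))
    (c.top c.gd0 c.gd1 (by omega) hy h1 hd)
  refine ⟨b, hb, ?_⟩
  have e : x - c.d b = x - y - c.d1 b := by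
    rw [LinearMap.add_apply, h3]
    abel
  rw [e]
  refine sub_mem h1 (mem_Fl (j := m - 2 + 0) (by omega) (c.gd1.eig ?_))
  rw [h2]
  push_cast
  rfl

theorem cyc (k m : ℕ) : ∀ z ∈ c.A k, c.d z = 0 → z ∈ Fl c.u (m + 1) →
    ∃ b ∈ c.A (k + 1), z - c.d b ∈ Fl c.u (if k = 0 then 1 else 0) := by
  have key : ∀ m : ℕ, k + m ≠ 0 → ∀ z ∈ c.A k, c.d z = 0 → z ∈ Fl c.u (m + 1) →
      ∃ b ∈ c.A (k + 1), z - c.d b ∈ Fl c.u m := by
    intro m hm z hz hd hf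
    obtain ⟨y, ⟨h1, h2, h3, b, hb, e⟩, hE, hF, -⟩ := si c.sl c.nE c.nF c.hH
      (P := fun y => y ∈ c.A k ∧ c.d y = 0 ∧ y ∈ Fl c.u (m + 1) ∧
        ∃ b ∈ c.A (k + 1), y = z - c.d b) (x := z) (by
        rintro t y ⟨h1, h2, h3, b, hb, e⟩
        obtain ⟨b', hb', e'⟩ := c.bH k y h1 h2
        refine ⟨sub_mem h1 (Submodule.smul_mem _ _ (c.HA k y h1)), ?_,
          sub_mem h3 (Submodule.smul_mem _ _ (c.gH.fl' h3 (by omega))), b + t • b',
          add_mem hb (Submodule.smul_mem _ _ hb'), ?_⟩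
        · rw [map_sub, map_smul, c.dH, h2, map_zero, smul_zero, sub_zero]
        · rw [map_add, map_smul, e', ← sub_sub, ← e]) (by
        rintro t y ⟨h1, h2, h3, b, hb, e⟩
        obtain ⟨b', hb', e'⟩ := c.bE k y h1 h2
        refine ⟨sub_mem h1 (Submodule.smul_mem _ _ (c.FA k _ (c.EA k y h1))), ?_,
          sub_mem h3 (Submodule.smul_mem _ _ (c.F_fl (c.E_fl h3))), b + t • (c.F0 + c.F1) b',
          add_mem hb (Submodule.smul_mem _ _ (c.FA _ _ hb')), ?_⟩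
        · rw [map_sub, map_smul, c.dF, c.dE, h2, map_zero, map_zero, smul_zero, sub_zero]
        · rw [map_add, map_smul, c.dF, e', ← sub_sub, ← e])
      ⟨hz, hd, hf, 0, zero_mem _, by rw [map_zero, sub_zero]⟩
    obtain ⟨b', hb', h4⟩ := c.step k m hm h1 h3 hE hF (by rw [h2]; exact zero_mem _)
    refine ⟨b + b', add_mem hb hb', ?_⟩
    rwa [map_add, ← sub_sub, ← e]
  induction m with
  | zero =>
    intro z hz hd hf
    split_ifs with hk
    · exact ⟨0, zero_mem _, by simpa using hf⟩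
    · exact key 0 (by omega) z hz hd hf
  | succ m ih =>
    intro z hz hd hf
    obtain ⟨b, hb, h⟩ := key (m + 1) (by omega) z hz hd hf
    obtain ⟨b', hb', h'⟩ := ih _ (sub_mem hz (c.dA k b hb))
      (by rw [map_sub, hd, c.dd _ b hb, sub_zero]) (by exact_mod_cast h)
    exact ⟨b + b', add_mem hb hb', by rwa [map_add, ← sub_sub]⟩

/-- Exactness in the positive degrees. -/
theorem exact (k : ℕ) {z : M} (hz : z ∈ c.A (k + 1)) (hd : c.d z = 0) :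
    ∃ b ∈ c.A (k + 2), c.d b = z := by
  obtain ⟨m, hm⟩ := c.nd.ex z
  obtain ⟨b, hb, h⟩ := c.cyc (k + 1) m z hz hd (Fl_mono (by omega) hm)
  rw [if_neg (Nat.succ_ne_zero k)] at h
  exact ⟨b, hb, (sub_eq_zero.1 (c.nd.zero h)).symm⟩

/-- In degree `0` every class is represented by a constant. -/
theorem span {z : M} (hz : z ∈ c.A 0) (hd : c.d z = 0) :
    ∃ b ∈ c.A 1, c.u (z - c.d b) = 0 := by
  obtain ⟨m, hm⟩ := c.nd.ex z
  obtain ⟨b, hb, h⟩ := c.cyc 0 m z hz hd (Fl_mono (by omega) hm)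
  rw [if_pos rfl] at h
  obtain ⟨y, hy, h'⟩ := Fl_split (r := 0) h
  refine ⟨b, hb, ?_⟩
  rw [sub_eq_zero.1 (c.nd.zero h'), hy, Int.cast_zero, zero_smul]

/-- An invariant constant which is a boundary vanishes. -/
theorem inj {v : M} (hu : c.u v = 0) (hE : (c.E0 + c.E1) v = 0) (hH : c.H v = 0) {b : M}
    (hb : b ∈ c.A 1) (e : c.d b = v) : v = 0 := by
  obtain ⟨m, hm⟩ := c.nd.ex b
  induction m generalizing b with
  | zero => rw [← e, c.nd.zero hm, map_zero]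
  | succ m ih =>
    obtain ⟨y, ⟨h1, h2, h3⟩, kE, kF, -⟩ := si c.sl c.nE c.nF c.hH
      (P := fun y => y ∈ c.A 1 ∧ c.d y = v ∧ y ∈ Fl c.u (m + 1)) (x := b) (by
        rintro t y ⟨h1, h2, h3⟩
        refine ⟨sub_mem h1 (Submodule.smul_mem _ _ (c.HA 1 y h1)), ?_,
          sub_mem h3 (Submodule.smul_mem _ _ (c.gH.fl' h3 (by omega)))⟩
        rw [map_sub, map_smul, c.dH, h2, hH, smul_zero, sub_zero]) (by
        rintro t y ⟨h1, h2, h3⟩
        refine ⟨sub_mem h1 (Submodule.smul_mem _ _ (c.FA 1 _ (c.EA 1 y h1))), ?_,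
          sub_mem h3 (Submodule.smul_mem _ _ (c.F_fl (c.E_fl h3)))⟩
        rw [map_sub, map_smul, c.dF, c.dE, h2, hE, map_zero, smul_zero, sub_zero])
      ⟨hb, e, by exact_mod_cast hm⟩
    obtain ⟨b', hb', h4⟩ := c.step 1 m (by omega) h1 h3 kE kF (by
      rw [h2]
      exact mem_Fl (j := 0) (by omega) (by rw [hu, Int.cast_zero, zero_smul]))
    exact ih (sub_mem h1 (c.dA 1 b' hb')) (by rw [map_sub, h2, c.dd _ b' hb', sub_zero]) h4

end Cd

end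

end Vale.Agent.P286E17
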