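import Vale.Agent.P286EI.Lie
import Vale.Agent.P286ES.Gen

/-!
# Invariants of `SL₂` on three pairs; projection onto the invariants of `sl₂`
-/

set_option linter.all false

namespace Vale.Agent.P286E17

open Matrix MvPolynomial Vale.Agent.P286EI Vale.Agent.P286ES Module

noncomputable section

/-- The field `x · ∂/∂ξ`. -/
def dE : Derivation ℂ PP PP := mkDerivation ℂ (Sum.elim 0 xv)

/-- The field `ξ · ∂/∂x`. -/
def dF : Derivation ℂ PP PP := mkDerivation ℂ (Sum.elim kv 0)

theorem dE_x (i : Fin 3) : dE (xv i) = 0 := mkDerivation_X _ _ _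

theorem dE_k (i : Fin 3) : dE (kv i) = xv i := mkDerivation_X _ _ _

theorem dF_x (i : Fin 3) : dF (xv i) = kv i := mkDerivation_X _ _ _

theorem dF_k (i : Fin 3) : dF (kv i) = 0 := mkDerivation_X _ _ _

/-- The moment map. -/
def mo : Fin 3 → PP := xv ⨯₃ kv

/-- Polynomials in the moment map. -/
def mv : TT →ₐ[ℂ] PP := aeval mo

theorem mv_X (i : Fin 3) : mv (X i) = mo i := aeval_X _ _

theorem ev_mo (x k : Fin 3 → ℂ) (i : Fin 3) : ev x k (mo i) = (x ⨯₃ k) i := by
  have h := congrFun (map_cross (ev x k) xv kv) i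
  rwa [ev_xv, ev_kv] at h

theorem ev_mv (x k : Fin 3 → ℂ) (a : TT) : ev x k (mv a) = aeval (x ⨯₃ k) a := by
  have h : (ev x k).comp mv = aeval (x ⨯₃ k) :=
    algHom_ext fun i => by rw [AlgHom.comp_apply, mv_X, ev_mo, aeval_X]
  exact AlgHom.congr_fun h a

theorem tt_ext {a : TT} (h : ∀ v : Fin 3 → ℂ, aeval v a = 0) : a = 0 :=
  MvPolynomial.funext fun v => by
    have := h v
    rw [map_zero]
    exact this

theorem cross_sl (a b c : ℂ) (hc : c ≠ 0) :
    (![1, 0, -(a / c)] : Fin 3 → ℂ) ⨯₃ ![0, c, -b] = ![a, b, c] := by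
  funext i
  refine all3 (P := fun i => ((![1, 0, -(a / c)] : Fin 3 → ℂ) ⨯₃ ![0, c, -b]) i = ![a, b, c] i)
    ?_ ?_ ?_ i
  · rw [cr0]; simp; field_simp
  · rw [cr1]; simp
  · rw [cr2]; simp

theorem vec3 (v : Fin 3 → ℂ) : v = ![v 0, v 1, v 2] := by
  funext i
  exact all3 (P := fun i => v i = ![v 0, v 1, v 2] i) rfl rfl rfl i

theorem mv_inj {a : TT} (h : mv a = 0) : a = 0 := by
  have h1 : X 2 * a = 0 := tt_ext fun v => by
    rw [map_mul, aeval_X]
    by_cases hc : v 2 = 0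
    · rw [hc, zero_mul]
    · rw [vec3 v, ← cross_sl _ _ _ hc, ← ev_mv, h, map_zero, mul_zero]
  exact (mul_eq_zero.1 h1).resolve_left (X_ne_zero 2)

theorem mo_ne (i : Fin 3) : mo i ≠ 0 := fun h => X_ne_zero i (mv_inj ((mv_X i).trans h))

theorem inv_E {f : PP} (hf : dE f = 0) (t : ℂ) (x k : Fin 3 → ℂ) :
    ev x (t • x + k) f = ev x k f := by
  let φ : PP →ₐ[ℂ] Polynomial ℂ := aeval (Sum.elim (fun i => Polynomial.C (x i))
    (fun i => Polynomial.X * Polynomial.C (x i) + Polynomial.C (k i)))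
  have e : ∀ s : ℂ, (φ f).eval s = ev x (s • x + k) f := fun s => by
    have h : (Polynomial.aeval s).comp φ = ev x (s • x + k) := algHom_ext fun i => by
      cases i <;> simp [φ, ev] <;> ring
    rw [← h, AlgHom.comp_apply, Polynomial.coe_aeval_eq_eval]
  have h := flow φ (δ := dE) (fun i => by
    cases i with
    | inl i => rw [show (X (.inl i) : PP) = xv i from rfl, dE_x]; simp [φ, xv]
    | inr i => rw [show (X (.inr i) : PP) = kv i from rfl, dE_k]; simp [φ, xv, kv]) hf t 0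
  rwa [e, e, zero_smul, zero_add] at h

theorem inv_F {f : PP} (hf : dF f = 0) (t : ℂ) (x k : Fin 3 → ℂ) :
    ev (x + t • k) k f = ev x k f := by
  let φ : PP →ₐ[ℂ] Polynomial ℂ := aeval (Sum.elim
    (fun i => Polynomial.C (x i) + Polynomial.X * Polynomial.C (k i))
    (fun i => Polynomial.C (k i)))
  have e : ∀ s : ℂ, (φ f).eval s = ev (x + s • k) k f := fun s => by
    have h : (Polynomial.aeval s).comp φ = ev (x + s • k) k := algHom_ext fun i => by
      cases i <;> simp [φ, ev] <;> ring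
    rw [← h, AlgHom.comp_apply, Polynomial.coe_aeval_eq_eval]
  have h := flow φ (δ := dF) (fun i => by
    cases i with
    | inl i => rw [show (X (.inl i) : PP) = xv i from rfl, dF_x]; simp [φ, xv, kv]
    | inr i => rw [show (X (.inr i) : PP) = kv i from rfl, dF_k]; simp [φ, kv]) hf t 0
  rwa [e, e, zero_smul, add_zero] at h

theorem inv_sl {f : PP} (hE : dE f = 0) (hF : dF f = 0) {g : Matrix (Fin 2) (Fin 2) ℂ}
    (hg : g.det = 1) (x k : Fin 3 → ℂ) :
    ev (g 0 0 • x + g 0 1 • k) (g 1 0 • x + g 1 1 • k) f = ev x k f := by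
  revert x k
  refine sl2_ind (P := fun g => ∀ x k : Fin 3 → ℂ,
    ev (g 0 0 • x + g 0 1 • k) (g 1 0 • x + g 1 1 • k) f = ev x k f) ?_ ?_ ?_ hg
  · intro t x k
    simpa using inv_F hF t x k
  · intro t x k
    simpa using inv_E hE t x k
  · intro a b ha hb x k
    rw [← hb x k, ← ha (b 0 0 • x + b 0 1 • k)]
    congr 2 <;> simp only [mul_apply, Fin.sum_univ_two] <;> module

theorem homog (s : TT) : ∃ (N : ℕ) (Q : TT), ∀ a b c : ℂ, c ≠ 0 →
    c ^ N * aeval ![a / c, b, c] s = aeval ![a, b, c] Q := by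
  induction s using MvPolynomial.induction_on with
  | C z => exact ⟨0, C z, fun a b c _ => by simp⟩
  | add p q hp hq =>
    obtain ⟨N, P, hp⟩ := hp
    obtain ⟨M, Q, hq⟩ := hq
    refine ⟨N + M, X 2 ^ M * P + X 2 ^ N * Q, fun a b c hc => ?_⟩
    simp only [map_add, map_mul, map_pow, aeval_X, ← hp a b c hc, ← hq a b c hc]
    simp only [cons_val_two, Nat.succ_eq_add_one, tail_cons, head_cons]
    ring
  | mul_X p i hp =>
    obtain ⟨N, P, hp⟩ := hp
    refine ⟨N + 1, P * ![X 0, X 1 * X 2, X 2 * X 2] i, fun a b c hc => ?_⟩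
    rw [map_mul, map_mul, ← hp a b c hc, aeval_X]
    have h : c * ![a / c, b, c] i = aeval ![a, b, c] (![X 0, X 1 * X 2, X 2 * X 2] i : TT) := by
      refine all3 (P := fun i => c * ![a / c, b, c] i =
        aeval ![a, b, c] (![X 0, X 1 * X 2, X 2 * X 2] i : TT)) ?_ ?_ ?_ i
      · simp; field_simp
      · simp [mul_comm]
      · simp
    rw [← h]
    ring

theorem X2_dvd {Q : TT} (h : ∀ a b : ℂ, aeval ![a, b, 0] Q = 0) : ∃ Q', Q = X 2 * Q' := by
  let ψ : TT →ₐ[ℂ] TT := aeval ![X 0, X 1, 0]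
  have h1 : ψ Q = 0 := tt_ext fun v => by
    have e : (aeval v).comp ψ = aeval ![v 0, v 1, 0] := algHom_ext fun i =>
      all3 (P := fun i => ((aeval v).comp ψ) (X i) = aeval ![v 0, v 1, 0] (X i : TT))
        (by simp [ψ]) (by simp [ψ]) (by simp [ψ]) i
    exact (AlgHom.congr_fun e Q).trans (h _ _)
  have h2 : ∀ P : TT, (X 2 : TT) ∣ P - ψ P := by
    intro P
    induction P using MvPolynomial.induction_on with
    | C z => simp [ψ]
    | add p q hp hq =>
      rw [map_add, add_sub_add_comm]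
      exact dvd_add hp hq
    | mul_X p i hp =>
      have e : p * X i - ψ (p * X i) = (p - ψ p) * X i + ψ p * (X i - ψ (X i)) := by
        rw [map_mul]; ring
      rw [e]
      refine dvd_add (hp.mul_right _) (Dvd.dvd.mul_left ?_ _)
      exact all3 (P := fun i => (X 2 : TT) ∣ X i - ψ (X i)) (by simp [ψ]) (by simp [ψ])
        (by simp [ψ]) i
  have h3 := h2 Q
  rwa [h1, sub_zero] at h3

theorem desc (N : ℕ) : ∀ (f : PP) (Q : TT), mo 2 ^ N * f = mv Q → ∃ a, f = mv a := by
  induction N with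
  | zero => exact fun f Q h => ⟨Q, by rw [← h, pow_zero, one_mul]⟩
  | succ N ih =>
    intro f Q h
    obtain ⟨Q', rfl⟩ := X2_dvd (Q := Q) fun a b => by
      have e : (![0, 0, 1] : Fin 3 → ℂ) ⨯₃ ![b, -a, 0] = ![a, b, 0] := by
        funext i
        exact all3 (P := fun i => ((![0, 0, 1] : Fin 3 → ℂ) ⨯₃ ![b, -a, 0]) i = ![a, b, 0] i)
          (by rw [cr0]; simp) (by rw [cr1]; simp) (by rw [cr2]; simp) i
      rw [← e, ← ev_mv, ← h, map_mul, map_pow, ev_mo, e]
      simp
    refine ih f Q' (mul_left_cancel₀ (mo_ne 2) ?_)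
    rw [← mul_assoc, ← pow_succ', h, map_mul, mv_X]

/-- **The invariants of `SL₂`** are the polynomials in the moment map. -/
theorem fft2 {f : PP} (hE : dE f = 0) (hF : dF f = 0) : ∃ a, f = mv a := by
  let sl : PP →ₐ[ℂ] TT := aeval (Sum.elim ![1, 0, -X 0] ![0, X 2, -X 1])
  obtain ⟨N, Q, hQ⟩ := homog (sl f)
  refine desc (N + 1) f (X 2 * Q) (ev_ext fun x k => ?_)
  rw [map_mul, map_pow, ev_mo, ev_mv, map_mul, aeval_X]
  by_cases hc : (x ⨯₃ k) 2 = 0
  · simp [hc]
  · have e : ∀ a b c : ℂ, aeval ![a, b, c] (sl f) = ev ![1, 0, -a] ![0, c, -b] f := by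
      intro a b c
      have h : (aeval ![a, b, c]).comp sl = ev ![1, 0, -a] ![0, c, -b] := algHom_ext fun i => by
        rcases i with i | i <;> fin_cases i <;> simp [sl, ev]
      exact AlgHom.congr_fun h f
    have hc' : x 0 * k 1 - x 1 * k 0 ≠ 0 := by rwa [cr2] at hc
    have hc'' : k 1 * x 0 - x 1 * k 0 ≠ 0 := by rwa [mul_comm (k 1)]
    have h1 := inv_sl hE hF (g := !![k 1 / (x ⨯₃ k) 2, -(x 1 / (x ⨯₃ k) 2); -k 0, x 0])
      (by rw [det_fin_two_of, cr2]; field_simp) x k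
    conv_rhs => rw [vec3 (x ⨯₃ k), ← hQ _ _ _ hc, e]
    rw [← h1, pow_succ']
    simp only [cons_val_two, Nat.succ_eq_add_one, tail_cons, head_cons, mul_assoc]
    congr 4
    · funext i
      fin_cases i <;> simp [cr0, cr2] <;> field_simp <;> ring
    · funext i
      fin_cases i <;> simp [cr1, cr2] <;> ring

section SI

variable {M : Type*} [AddCommGroup M] [Module ℂ M] {E F H : End ℂ M}

theorem pow_ef (s : Sl E F H) (n : ℕ) {μ : ℂ} {v : M} (hv : H v = μ • v) :
    (E ^ (n + 1)) (F v) = F ((E ^ (n + 1)) v) + ((n + 1) * (μ + n)) • (E ^ n) v ∧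
      H ((E ^ (n + 1)) v) = (μ + 2 * (n + 1)) • (E ^ (n + 1)) v := by
  induction n with
  | zero =>
    refine ⟨by simp [s.ef, hv], ?_⟩
    simp only [zero_add, pow_one, s.he, hv, map_smul]
    module
  | succ n ih =>
    obtain ⟨h1, h2⟩ := ih
    have e : ∀ k x, (E ^ (k + 1)) x = E ((E ^ k) x) := fun k x => by rw [pow_succ']; rfl
    refine ⟨?_, ?_⟩
    · rw [e (n + 1), h1, map_add, map_smul, s.ef, h2, ← e, ← e]
      push_cast
      module
    · rw [e (n + 1), s.he, h2, map_smul]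
      push_cast
      module

/-- **Projection onto the invariants**, as an induction principle. -/
theorem si (s : Sl E F H) (hE : ∀ x, ∃ n, (E ^ n) x = 0) (hF : ∀ x, ∃ n, (F ^ n) x = 0)
    (hH : ∀ x, x ∈ ⨆ μ : ℂ, H.eigenspace μ) {P : M → Prop}
    (h1 : ∀ (c : ℂ) x, P x → P (x - c • H x)) (h2 : ∀ (c : ℂ) x, P x → P (x - c • F (E x)))
    {x : M} (hx : P x) : ∃ y, P y ∧ E y = 0 ∧ F y = 0 ∧ H y = 0 := by
  classical
  have s1 : ∀ t : Finset ℂ, ∀ x, P x → x ∈ (H.eigenspace 0 ⊔ ⨆ μ ∈ t, H.eigenspace μ) →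
      ∃ y, P y ∧ H y = 0 := by
    intro t
    induction t using Finset.induction_on with
    | empty => exact fun x hx h => ⟨x, hx, by simpa using h⟩
    | insert μ t _ ih =>
      intro x hx h
      rw [Finset.iSup_insert] at h
      by_cases hμ : μ = 0
      · subst hμ
        rw [← sup_assoc, sup_idem] at h
        exact ih x hx h
      · refine ih _ (h1 μ⁻¹ x hx) ?_
        rw [sup_left_comm] at h
        obtain ⟨u, hu, w, hw, rfl⟩ := Submodule.mem_sup.1 h
        have e : u + w - μ⁻¹ • H (u + w) = w - μ⁻¹ • H w := by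
          rw [map_add, End.mem_eigenspace_iff.1 hu, smul_add, smul_smul, inv_mul_cancel₀ hμ]
          module
        rw [e]
        refine sub_mem hw (Submodule.smul_mem _ _ ?_)
        have st : ∀ ν : ℂ, ∀ z ∈ H.eigenspace ν, H z ∈ H.eigenspace ν := fun ν z hz => by
          rw [End.mem_eigenspace_iff.1 hz]
          exact Submodule.smul_mem _ _ hz
        have le : (H.eigenspace 0 ⊔ ⨆ μ ∈ t, H.eigenspace μ) ≤
            (H.eigenspace 0 ⊔ ⨆ μ ∈ t, H.eigenspace μ).comap H :=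
          sup_le (fun z hz => Submodule.mem_sup_left (st 0 z hz)) (iSup₂_le fun ν hν z hz =>
            Submodule.mem_sup_right (le_iSup₂_of_le (f := fun μ (_ : μ ∈ t) => H.eigenspace μ)
              ν hν le_rfl (st ν z hz)))
        exact le hw
  have s2 : ∀ n, ∀ y, P y → H y = 0 → (E ^ (n + 1)) y = 0 → ∃ z, P z ∧ E z = 0 ∧ H z = 0 := by
    intro n
    induction n with
    | zero => exact fun y hy h h' => ⟨y, hy, by simpa using h', h⟩
    | succ n ih =>
      intro y hy h h'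
      have hv : H (E y) = (2 : ℂ) • E y := by rw [s.he, h, map_zero, zero_add]
      have e : ∀ k, (E ^ k) (E y) = (E ^ (k + 1)) y := fun k => by rw [pow_succ]; rfl
      have hc : ((n : ℂ) + 1) * (2 + n) ≠ 0 := by
        refine mul_ne_zero ?_ ?_ <;> norm_cast <;> omega
      refine ih _ (h2 (((n : ℂ) + 1) * (2 + n))⁻¹ y hy) ?_ ?_
      · rw [map_sub, map_smul, s.hf, hv, h, map_smul, sub_self, smul_zero, sub_zero]
      · rw [map_sub, map_smul, (pow_ef s n hv).1, e, e, h', map_zero, zero_add, smul_smul,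
          inv_mul_cancel₀ hc, one_smul, sub_self]
  obtain ⟨t, ht⟩ := Submodule.mem_iSup_iff_exists_finset.1 (hH x)
  obtain ⟨y, hy, h0⟩ := s1 t x hx (Submodule.mem_sup_right ht)
  obtain ⟨n, hn⟩ := hE y
  obtain ⟨z, hz, e1, e2⟩ := s2 n y hy h0 (by rw [pow_succ', End.mul_apply, hn, map_zero])
  refine ⟨z, hz, e1, ?_, e2⟩
  have hw : Hw E H 0 z := ⟨e1, by rw [e2, zero_smul]⟩
  have s3 : ∀ k, (F ^ (k + 1)) z = 0 → F z = 0 := by
    intro k
    induction k with
    | zero => exact fun h => by simpa using h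
    | succ k ih =>
      intro h
      have h3 := (hw.pow s (k + 1)).2
      rw [h, map_zero] at h3
      refine ih (smul_cancel ?_ h3.symm)
      refine mul_ne_zero ?_ ?_
      · norm_cast
      · rw [zero_sub, neg_ne_zero]
        norm_cast
  obtain ⟨k, hk⟩ := hF z
  exact s3 k (by rw [pow_succ', End.mul_apply, hk, map_zero])

end SI

end

end Vale.Agent.P286E17
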