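import Vale.Agent.P286E17.Ph
import Vale.Agent.P286EX7.Br2
import Vale.Agent.P286EXR.Low

/-!
# The block of the standard representation
-/

set_option linter.all false

namespace Vale.Agent.P286E17

open Matrix MvPolynomial TensorProduct Module Vale.Agent.P286EI Vale.Agent.P286ES Vale.Agent.P286EL
  Vale.Agent.P286E73 Vale.Agent.P286EK Vale.Agent.P286E48 Vale.Agent.P286E99 Vale.Agent.P286.H847
open Vale.Agent.P286EX (GK Rep)

noncomputable section

/-- The symbols, with the momenta as outer variables. -/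
def sy : PP ≃ₐ[ℂ] MvPolynomial (Fin 3) (MvPolynomial (Fin 3) ℂ) :=
  (renameEquiv ℂ (Equiv.sumComm _ _)).trans (sumAlgEquiv ℂ (Fin 3) (Fin 3))

theorem sy_x (a : Fin 3) : sy (xv a) = C (X a) := by simp [sy, xv]

theorem sy_k (a : Fin 3) : sy (kv a) = X a := by simp [sy, kv]

theorem pd_cm : DO.Cm fun a : Fin 3 =>
    (pderiv a : Derivation ℂ (MvPolynomial (Fin 3) ℂ) (MvPolynomial (Fin 3) ℂ)) := fun k l p => by
  induction p using MvPolynomial.induction_on with
  | C z => simp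
  | add p q hp hq => simp only [map_add, hp, hq]
  | mul_X p b hp =>
    have e : ∀ k l : Fin 3, pderiv k (pderiv l (X b : MvPolynomial (Fin 3) ℂ)) = 0 := fun k l => by
      rw [pderiv_X, Pi.single_apply]
      split_ifs <;> simp
    simp only [Derivation.leibniz, map_add, e, hp, smul_eq_mul]
    ring

/-- The normal ordering. -/
def n3 : NW W3 where
  x := x0
  d := d0
  wy := wy3
  no := sy.toLinearEquiv.trans ((DO.pbw pd_cm).restrictScalars ℂ)
  no_one := (congrArg (DO.no _) (map_one sy)).trans DO.no_one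
  no_x a p := (congrArg (DO.no _) ((map_mul sy _ _).trans (by rw [sy_x]))).trans
    (DO.no_C_mul (X a) (sy p))
  no_d a p := (congrArg (DO.no _) ((map_mul sy _ _).trans (by rw [sy_k, mul_comm]))).trans
    (DO.no_mul_X (sy p) a)

theorem nt3 : Nontrivial W3 := n3.no.injective.nontrivial

theorem anti {R : Type} [Ring R] {u v t : Fin 3 → R} {e : R} (h1 : ∀ a b, t a * u b = u b * t a)
    (h2 : ∀ a b, t a * v b = v b * t a) (h3 : ∀ a, t a * t a = 1)
    (h4 : ∀ a b, a ≠ b → t a * t b = -(t b * t a))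
    (h5 : ∀ a b, v a * u b = u b * v a + if a = b then e else 0) :
    (∑ a, u a * t a) * (∑ a, v a * t a) + (∑ a, v a * t a) * (∑ a, u a * t a) =
      ∑ a, (u a * v a + u a * v a + e) := by
  rw [Finset.sum_mul_sum, Finset.sum_mul_sum, Finset.sum_comm (f := fun a b => v a * t a * _),
    ← Finset.sum_add_distrib]
  refine Finset.sum_congr rfl fun a _ => ?_
  rw [← Finset.sum_add_distrib, Finset.sum_eq_single a]
  · rw [mul_assoc, mul_assoc, ← mul_assoc (t a), ← mul_assoc (t a), h1, h2, mul_assoc, mul_assoc,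
      h3, mul_one, mul_one, h5 a a, if_pos rfl, add_assoc]
  · intro b _ h
    rw [mul_assoc, mul_assoc, ← mul_assoc (t a), ← mul_assoc (t b), h1, h2, mul_assoc (v b),
      mul_assoc (u a), h4 b a h, ← mul_assoc (v b) (u a), h5, if_neg h, add_zero, mul_neg,
      mul_assoc, add_neg_cancel]
  · simp

theorem x_mu (κ : ℂ) : ∑ a, x0 a * mu3 κ a = 0 := by
  simp only [mu, Fin.sum_univ_three, mul_smul_comm, ← smul_add, f3, mul_sub, ← mul_assoc,
    wy3.yy 1 0, wy3.yy 2 0, wy3.yy 2 1]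
  exact smul_eq_zero_of_right _ (by abel)

theorem d_mu (κ : ℂ) : ∑ a, d0 a * mu3 κ a = 0 := by
  simp +decide only [mu, Fin.sum_univ_three, mul_smul_comm, ← smul_add, f3, mul_sub, ← mul_assoc,
    wy3.dy, if_false, add_zero]
  simp only [mul_assoc, wy3.dd 1 0, wy3.dd 2 0, wy3.dd 2 1]
  exact smul_eq_zero_of_right _ (by abel)

variable {n : Type} [Fintype n] [DecidableEq n] (κ : ℂ) (r : Fin 3 → Matrix n n ℂ) (hr : Br κ r)

theorem m_eq (a : Fin 3) :
    (bdM κ r hr).m a = (r a)ᵀ.map (algebraMap ℂ W3) - scalar n (mu κ n3.x n3.d a) := by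
  change -(scalar n _ + (-(r a)ᵀ).map _) = _
  rw [Matrix.map_neg _ (map_neg _), neg_add, neg_neg, neg_add_eq_sub]
  rfl

theorem adj_sc (a : Fin 3) (y : W3) :
    adj (MU (mu3 κ) r a) (scalar n y) = scalar n (adj (mu3 κ a) y) := by
  rw [adj_apply, adj_apply, MU, add_mul, mul_add, sc_cm, map_sub, map_mul, map_mul,
    add_sub_add_right_eq_sub]

theorem vec0 (B : BD) {v : Fin 3 → B.M}
    (h : ∀ a b, adj (B.μ a) (v b) = ∑ c, (B.κ * P286EX.eps a b c) • v c) :
    ∃ b ∈ B.A.gr (-1), B.ι (B.A.d b) = L3.inl ℂ _ (∑ a, v a * B.m a) := by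
  refine ⟨B.mkA ⟨0, v, 0, 0⟩ fun a => ?_,
    ⟨fun _ => rfl, fun h => absurd rfl h, fun _ => rfl, fun _ => rfl⟩, ?_⟩
  · fin_cases a <;> refine L3.ext8 ?_ ?_ ?_ ?_ ?_ ?_ ?_ ?_ <;>
      simp [BD.δ_apply, L3.map_apply, L3.ad_apply, L3.cx_apply, h, P286EX.eps, Fin.sum_univ_three]
  · rw [BD.ι_d, BD.ι_mkA, dL_apply]
    refine L3.ext8 ?_ ?_ ?_ ?_ ?_ ?_ ?_ ?_ <;> simp [L3.inl_apply, Fin.sum_univ_three]

theorem vec_bd {v : Fin 3 → W3}
    (h : ∀ a b, adj (mu3 κ a) (v b) = ∑ c, (κ * P286EX.eps a b c) • v c)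
    (h' : ∑ a, v a * mu3 κ a = 0) : ∃ b ∈ (bdM κ r hr).A.gr (-1), (bdM κ r hr).ι
      ((bdM κ r hr).A.d b) = L3.inl ℂ _ (∑ a, scalar n (v a) * (r a)ᵀ.map (algebraMap ℂ W3)) := by
  obtain ⟨b, hb, e⟩ := vec0 (bdM κ r hr) (v := fun a => scalar n (v a)) fun a b =>
    (adj_sc κ r a _).trans (by
      rw [h, map_sum]
      exact Finset.sum_congr rfl fun c _ => map_smul (scalarAlgHom n ℂ (α := W3)) _ _)
  refine ⟨b, hb, e.trans (congrArg _ ?_)⟩
  have e' := congrArg (scalar n) h'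
  rw [map_sum, map_zero] at e'
  simp only [m_eq, mul_sub, Finset.sum_sub_distrib, ← map_mul]
  exact (congrArg _ e').trans (sub_zero _)

variable (hκ : κ ≠ 0) (h1 : ∀ a, r a * r a = 1) (h2 : ∀ a b, a ≠ b → r a * r b = -(r b * r a))
  (hs : ∀ c : Matrix n n ℂ, (∀ a, (r a)ᵀ * c = c * (r a)ᵀ) → ∃ z : ℂ, c = z • 1) [Nonempty n]

include h1 h2 in
theorem anti' {u v : Fin 3 → W3} {e : W3}
    (h : ∀ a b, v a * u b = u b * v a + if a = b then e else 0) :
    (∑ a, scalar n (u a) * (r a)ᵀ.map (algebraMap ℂ W3)) *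
      (∑ a, scalar n (v a) * (r a)ᵀ.map (algebraMap ℂ W3)) +
    (∑ a, scalar n (v a) * (r a)ᵀ.map (algebraMap ℂ W3)) *
      (∑ a, scalar n (u a) * (r a)ᵀ.map (algebraMap ℂ W3)) =
      scalar n (∑ a, (u a * v a + u a * v a + e)) := by
  rw [anti (e := scalar n e) (fun a b => (sc_cm _ _).symm) (fun a b => (sc_cm _ _).symm)]
  · simp only [map_sum, map_add, map_mul]
  · intro a
    rw [← Matrix.map_mul, ← transpose_mul, h1, transpose_one, Matrix.map_one _ (map_zero _) (map_one _)]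
  · intro a b e
    rw [← Matrix.map_mul, ← Matrix.map_mul, ← transpose_mul, ← transpose_mul, h2 b a e.symm,
      transpose_neg, Matrix.map_neg _ (map_neg _)]
  · intro a b
    rw [← map_mul, h, map_add, map_mul, apply_ite (scalar n), map_zero]

/-- The invariant complex of a Clifford module. -/
def emb : Emb (n3.bw n) (NW.g hκ fun a => (r a)ᵀ) (dL κ fun a => L3.rm _ (r a)ᵀ) (AM κ r hr)
    (-3 / 2) where
  io := (bdM κ r hr).ι
  inj := (bdM κ r hr).ι_inj
  io_d a := (n3.dif_eq hκ _ (m_eq κ r hr) _).symm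
  mem k a ha := (n3.mem_A hκ _ (m_eq κ r hr)).2 ⟨ha, (bdM κ r hr).ι_inv a⟩
  onto k z hz :=
    have h := (n3.mem_A hκ _ (m_eq κ r hr)).1 hz
    ⟨(bdM κ r hr).mkA z (((bdM κ r hr).inv_iff z).1 h.2), h.1, rfl⟩
  pos m hm a ha := (bdM κ r hr).ι_inj (L3.ext (ha.1 (by omega)) (ha.2.1 (by omega))
    (ha.2.2.1 (by omega)) (ha.2.2.2 (by omega)))
  io_q := by
    change i0 n q3 = ∑ a, i0 n (x0 a) * i0 n (x0 a)
    simp only [q3, map_sum, map_mul]
  io_E := by
    change i0 n (E0 (Fin 3)) = ∑ a, i0 n (x0 a) * i0 n (d0 a)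
    simp only [E0, map_sum, map_mul]
  hq := by
    obtain ⟨b, hb, e⟩ := vec_bd κ r hr (wy3.mu_y κ) (x_mu κ)
    refine ⟨(2⁻¹ : ℂ) • (b * (bdM κ r hr).A.d b + b * (bdM κ r hr).A.d b),
      Submodule.smul_mem _ _ (add_mem ((bdM κ r hr).A.mul_gr _ _ _ _ hb ((bdM κ r hr).A.dgr _ _ hb))
        ((bdM κ r hr).A.mul_gr _ _ _ _ hb ((bdM κ r hr).A.dgr _ _ hb))), (bdM κ r hr).ι_inj ?_⟩
    change (bdM κ r hr).ι ((bdM κ r hr).A.d _) = i0 n q3
    rw [map_smul, map_add, DGA.leib, DGA.dd, mul_zero, add_zero, map_smul, map_add, map_mul, e,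
      L3.inl_mul_inl, ← map_add, anti' r h1 h2 (e := 0) fun a b => by rw [wy3.yy, ite_self, add_zero],
      ← i0_apply, ← map_smul, q3]
    congr 1
    simp only [Fin.sum_univ_three]
    module
  hE := by
    obtain ⟨b, hb, e⟩ := vec_bd κ r hr (wy3.mu_y κ) (x_mu κ)
    obtain ⟨b', hb', e'⟩ := vec_bd κ r hr (wy3.mu_d κ) (d_mu κ)
    refine ⟨(2⁻¹ : ℂ) • (b * (bdM κ r hr).A.d b' + b' * (bdM κ r hr).A.d b),
      Submodule.smul_mem _ _ (add_mem ((bdM κ r hr).A.mul_gr _ _ _ _ hb ((bdM κ r hr).A.dgr _ _ hb'))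
        ((bdM κ r hr).A.mul_gr _ _ _ _ hb' ((bdM κ r hr).A.dgr _ _ hb))), (bdM κ r hr).ι_inj ?_⟩
    change (bdM κ r hr).ι ((bdM κ r hr).A.d _) = i0 n (E0 (Fin 3)) - (-3 / 2 : ℂ) • 1
    rw [map_smul, map_add, DGA.leib, DGA.leib, DGA.dd, DGA.dd, mul_zero, mul_zero, add_zero, add_zero,
      map_smul, map_add, map_mul, map_mul, e, e', L3.inl_mul_inl, L3.inl_mul_inl, ← map_add,
      anti' r h1 h2 wy3.dy, ← i0_apply, ← map_smul, ← map_one (i0 n (D := W3)), ← map_smul, ← map_sub, E0]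
    congr 1
    simp only [Fin.sum_univ_three]
    module
  sch a ha w e := by
    haveI := nt3
    rw [NW.Φ_eq, n3.no_one] at e
    have e1 : ((bdM κ r hr).ι a).s = w.s.map (algebraMap ℂ W3) :=
      (congrArg L3.s e).trans (sm_one n _)
    obtain ⟨z, hz⟩ := hs w.s fun c => by
      have h : adj (MU (mu3 κ) r c) ((bdM κ r hr).ι a).s + κ • 0 = 0 :=
        congrArg L3.s ((bdM κ r hr).ι_δ a c)
      rw [smul_zero, add_zero, e1, adj_apply, MU, add_mul, mul_add, sc_cm, add_sub_add_left_eq_sub,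
        sub_eq_zero, ← Matrix.map_mul, ← Matrix.map_mul] at h
      simpa using Matrix.map_injective (algebraMap ℂ W3).injective h
    refine ⟨z, (bdM κ r hr).ι_inj ?_⟩
    change (bdM κ r hr).ι a = z • (1 : L3 (Matrix n n W3))
    refine L3.ext (e1.trans ?_) ((ha.2.1 (by omega)).trans (smul_zero z).symm)
      ((ha.2.2.1 (by omega)).trans (smul_zero z).symm)
      ((ha.2.2.2 (by omega)).trans (smul_zero z).symm)
    rw [← sm_one, hz, map_smul, sm_one, Matrix.map_one _ (map_zero _) (map_one _)]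
    rfl
  one := ⟨L3.inl ℂ _ 1, by
    rw [NW.Φ_eq, n3.no_one, L3.map_inl, sm_one, Matrix.map_one _ (map_zero _) (map_one _)]
    rfl⟩
  nt h := by
    haveI := nt3
    exact one_ne_zero (congrArg L3.s h : (1 : Matrix n n W3) = 0)

open Vale.Agent.P286EXR Vale.Agent.P286E in
/-- The augmentation of the algebra of the standard representation is a quasi-isomorphism. -/
theorem gm (K : GK SL2) : ∃ g : WH (AU (std K)) (C0 (-3 / 2)),
    g.φ.f 1 = 1 ∧ GD.Qis g.φ.hom ∧ MorH g.φ := by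
  have h1 : ∀ a, p2 a * p2 a = 1 := fun a => by
    fin_cases a <;> ext i j <;> fin_cases i <;> fin_cases j <;> simp [p2]
  have h2 : ∀ a b, a ≠ b → p2 a * p2 b = -(p2 b * p2 a) := fun a b h => by
    fin_cases a <;> fin_cases b <;> first
      | exact absurd rfl h
      | (ext i j; fin_cases i <;> fin_cases j <;> simp [p2])
  have hs : ∀ c : Matrix (Fin 2) (Fin 2) ℂ, (∀ a, (p2 a)ᵀ * c = c * (p2 a)ᵀ) →
      ∃ z : ℂ, c = z • 1 := fun c h => by
    have a := congrFun (congrFun (h 0) 0) 1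
    have b := congrFun (congrFun (h 0) 0) 0
    have d := congrFun (congrFun (h 2) 0) 1
    simp [p2, mul_apply, Fin.sum_univ_two] at a b d
    have e : c 0 1 = 0 := by linear_combination (1 / 2 : ℂ) * d
    refine ⟨c 0 0, ?_⟩
    ext i j
    fin_cases i <;> fin_cases j <;> simp [a, b, e]
  exact (emb (n := Fin 2) K.κ p2 (std K).dr_br K.κ_ne h1 h2 hs).fm

end

end Vale.Agent.P286E17
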