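import Vale.Agent.P286E17.Core

/-!
# The equivariant Koszul homotopy
-/

set_option linter.all false

namespace Vale.Agent.P286E17

open Matrix MvPolynomial TensorProduct Vale.Agent.P286EI Vale.Agent.P286ES Module

noncomputable section

section Diag

variable {σ : Type}

/-- The Euler field with weights. -/
def eu (c : σ → ℕ) : Derivation ℂ (MvPolynomial σ ℂ) (MvPolynomial σ ℂ) :=
  mkDerivation ℂ fun i => (c i : ℂ) • X i

theorem eu_X (c : σ → ℕ) (i : σ) : eu c (X i) = (c i : ℂ) • X i := mkDerivation_X _ _ _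

theorem nd_eu (c : σ → ℕ) : Nd (eu c).toLinearMap := by
  intro f
  induction f using MvPolynomial.induction_on with
  | C z =>
    exact Submodule.mem_iSup_of_mem 0 (End.mem_eigenspace_iff.2 (by simp [derivation_C]))
  | add p q hp hq => exact add_mem hp hq
  | mul_X p i hp =>
    refine Submodule.iSup_induction (motive := fun p => p * X i ∈
      ⨆ j : ℕ, End.eigenspace (eu c).toLinearMap (j : ℂ)) _ hp (fun j p hp => ?_) (by simp)
      fun p q hp hq => by rw [add_mul]; exact add_mem hp hq
    refine Submodule.mem_iSup_of_mem (j + c i) (End.mem_eigenspace_iff.2 ?_)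
    have h : eu c p = (j : ℂ) • p := End.mem_eigenspace_iff.1 hp
    change eu c (p * X i) = _
    rw [Derivation.leibniz, h, eu_X]
    simp only [smul_eq_mul, mul_smul_comm, smul_mul_assoc, Nat.cast_add, add_smul,
      mul_comm (X i)]
    abel

theorem dg_mul (c : σ → ℕ) {g : MvPolynomial σ ℂ} {s : ℤ} (h : eu c g = (s : ℂ) • g) :
    Dg (eu c).toLinearMap (LinearMap.mulLeft ℂ g) s := fun f => by
  change eu c (g * f) = g * eu c f + (s : ℂ) • (g * f)
  rw [Derivation.leibniz, h, smul_eq_mul, smul_eq_mul, mul_smul_comm, mul_comm f]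

theorem dg_der (c : σ → ℕ) {D : Derivation ℂ (MvPolynomial σ ℂ) (MvPolynomial σ ℂ)} {s : ℤ}
    (h : ∀ i, eu c (D (X i)) = D (eu c (X i)) + (s : ℂ) • D (X i)) :
    Dg (eu c).toLinearMap D.toLinearMap s := fun f => by
  have e : ⁅eu c, D⁆ = (s : ℂ) • D := derivation_ext fun i => by
    rw [Derivation.commutator_apply, h, add_sub_cancel_left]
    rfl
  have e' := congrArg (fun δ : Derivation ℂ _ _ => δ f) e
  simp only [Derivation.commutator_apply, Derivation.smul_apply] at e'
  exact (sub_eq_iff_eq_add.1 e').trans (add_comm _ _)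

theorem dg_pd (c : σ → ℕ) (i : σ) :
    Dg (eu c).toLinearMap (pderiv i).toLinearMap (-(c i : ℤ)) := by
  classical
  refine dg_der c fun j => ?_
  rw [eu_X, Derivation.map_smul]
  by_cases h : i = j
  · subst h
    simp
  · simp [pderiv_X, Pi.single_apply, h, Ne.symm h]

end Diag

variable {V V' W : Type} [AddCommGroup V] [Module ℂ V] [AddCommGroup V'] [Module ℂ V']
  [AddCommGroup W] [Module ℂ W]

theorem Nd.ten {u : End ℂ V} (h : Nd u) : Nd (u.rTensor W) := by
  intro z
  induction z using TensorProduct.induction_on with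
  | zero => exact zero_mem _
  | add z z' hz hz' => exact add_mem hz hz'
  | tmul v w =>
    refine Submodule.iSup_induction (motive := fun v => v ⊗ₜ[ℂ] w ∈
      ⨆ j : ℕ, End.eigenspace (u.rTensor W) (j : ℂ)) _ (h v) (fun j v hv => ?_) (by simp)
      fun p q hp hq => by rw [add_tmul]; exact add_mem hp hq
    refine Submodule.mem_iSup_of_mem j (End.mem_eigenspace_iff.2 ?_)
    rw [LinearMap.rTensor_tmul, End.mem_eigenspace_iff.1 hv, smul_tmul']

theorem Dg.ten {u T : End ℂ V} {s : ℤ} (h : Dg u T s) (S : End ℂ W) :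
    Dg (u.rTensor W) (TensorProduct.map T S) s := fun z => by
  induction z using TensorProduct.induction_on with
  | zero => simp
  | add z z' hz hz' => simp only [map_add, hz, hz', smul_add]; abel
  | tmul v w => simp only [map_tmul, LinearMap.rTensor_tmul, h v, add_tmul, smul_tmul']

/-- The common kernel of two operators, tensored with a vector space. -/
theorem ker_ten {f : V' →ₗ[ℂ] V} {T T' : End ℂ V} (h : ∀ v, T v = 0 → T' v = 0 → ∃ a, v = f a)
    {z : V ⊗[ℂ] W} (h1 : T.rTensor W z = 0) (h2 : T'.rTensor W z = 0) :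
    ∃ y, f.rTensor W y = z := by
  classical
  let B := Module.Basis.ofVectorSpace ℂ W
  have key : ∀ (S : End ℂ V) (z : V ⊗[ℂ] W) i,
      equivFinsuppOfBasisRight B (S.rTensor W z) i = S (equivFinsuppOfBasisRight B z i) := by
    intro S z i
    induction z using TensorProduct.induction_on with
    | zero => simp
    | add z z' hz hz' => simp only [map_add, Finsupp.add_apply, hz, hz']
    | tmul v w =>
      rw [LinearMap.rTensor_tmul, equivFinsuppOfBasisRight_apply_tmul_apply,
        equivFinsuppOfBasisRight_apply_tmul_apply, map_smul]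
  change z ∈ LinearMap.range (f.rTensor W)
  rw [← (equivFinsuppOfBasisRight B).symm_apply_apply z, equivFinsuppOfBasisRight_symm_apply]
  refine Submodule.sum_mem _ fun i _ => ?_
  obtain ⟨a, ha⟩ := h (equivFinsuppOfBasisRight B z i) (by rw [← key, h1]; simp)
    (by rw [← key, h2]; simp)
  exact ⟨a ⊗ₜ B i, by rw [LinearMap.rTensor_tmul, ha]⟩

/-- Ghost operators. -/
structure Gh (W : Type) [AddCommGroup W] [Module ℂ W] where
  ι : Fin 3 → End ℂ W
  e : Fin 3 → End ℂ W
  l : Fin 3 → End ℂ W
  ιe : ∀ a b w, ι a (e b w) = (if a = b then w else 0) - e b (ι a w)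
  ee : ∀ a b w, e a (e b w) = - e b (e a w)
  l0 : ∀ c w, l c (e c w) = e c (l c w)
  l1 : ∀ c w, l c (e (c + 1) w) = e (c + 1) (l c w) - e (c + 2) w
  l2 : ∀ c w, l c (e (c + 2) w) = e (c + 2) (l c w) + e (c + 1) w

/-- The total degree. -/
def Eu : End ℂ PP := (eu fun _ => 1).toLinearMap

/-- The rotation about the axis `c`. -/
def ro (c : Fin 3) : Derivation ℂ PP PP := rot (Pi.single c 1)

/-- The rotation about the axis `c`, on the polynomials in the moment map. -/
def rt (c : Fin 3) : Derivation ℂ TT TT := mkDerivation ℂ ((C ∘ Pi.single c 1) ⨯₃ X)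

theorem der_mv {δ : Derivation ℂ PP PP} {δ' : Derivation ℂ TT TT}
    (h : ∀ i, δ (mo i) = mv (δ' (X i))) (f : TT) : δ (mv f) = mv (δ' f) := by
  induction f using MvPolynomial.induction_on with
  | C z => rw [derivation_C, ← algebraMap_eq, AlgHom.commutes, Derivation.map_algebraMap, map_zero]
  | add p q hp hq => simp only [map_add, hp, hq]
  | mul_X p i hp => simp only [map_mul, Derivation.leibniz, map_add, smul_eq_mul, hp, mv_X, h]

theorem rot_mo (n : Fin 3 → ℂ) (i : Fin 3) : rot n (mo i) = mv (((C ∘ n) ⨯₃ X) i) := by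
  have h1 := congrFun (rot_cross n (rot_x n) (rot_k n)) i
  have h2 := congrFun (map_cross mv (C ∘ n) X) i
  have h3 : mv ∘ (C ∘ n) = C ∘ n := funext fun j => by
    simp only [Function.comp_apply, algHom_C, algebraMap_eq]
  have h4 : mv ∘ X = mo := funext mv_X
  rw [h3, h4] at h2
  exact h1.trans h2.symm

theorem ro_mv (c : Fin 3) (f : TT) : ro c (mv f) = mv (rt c f) :=
  der_mv (fun i => by rw [rt, mkDerivation_X]; exact rot_mo _ i) f

theorem eu_mo (i : Fin 3) : (eu fun _ => 1) (mo i) = (2 : ℂ) • mo i := by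
  have h : ∀ a b, (eu fun _ => 1) (xv a * kv b) = (2 : ℂ) • (xv a * kv b) := fun a b => by
    rw [Derivation.leibniz, xv, kv, eu_X, eu_X]
    simp only [Nat.cast_one, one_smul, smul_eq_mul, two_smul, mul_comm]
  refine all3 (P := fun i => (eu fun _ => 1) (mo i) = (2 : ℂ) • mo i) ?_ ?_ ?_ i
  · rw [mo, cr0, map_sub, h, h, smul_sub]
  · rw [mo, cr1, map_sub, h, h, smul_sub]
  · rw [mo, cr2, map_sub, h, h, smul_sub]

theorem eu_mv (f : TT) : Eu (mv f) = mv (((2 : ℂ) • eu fun _ => 1) f) :=
  der_mv (fun i => by rw [eu_mo, Derivation.smul_apply, eu_X, Nat.cast_one, one_smul, map_smul, mv_X]) f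

theorem eu_sum (f : TT) : (eu fun _ => 1) f = ∑ a, X a * pderiv a f := by
  have e : (eu fun _ => 1 : Derivation ℂ TT TT) = ∑ a, (X a : TT) • pderiv a :=
    derivation_ext fun i => by
      rw [eu_X]
      fin_cases i <;> simp [Fin.sum_univ_three, pderiv_X]
  rw [e]
  simp [Fin.sum_univ_three]

theorem rt_pd (c : Fin 3) (f : TT) : rt c (pderiv c f) = pderiv c (rt c f) ∧
    rt c (pderiv (c + 1) f) = pderiv (c + 1) (rt c f) - pderiv (c + 2) f ∧
    rt c (pderiv (c + 2) f) = pderiv (c + 2) (rt c f) + pderiv (c + 1) f := by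
  have key : ∀ (a : Fin 3) (δ : Derivation ℂ TT TT),
      (∀ i, rt c (pderiv a (X i)) - pderiv a (rt c (X i)) = δ (X i)) →
      rt c (pderiv a f) = pderiv a (rt c f) + δ f := fun a δ h => by
    have e : ⁅rt c, pderiv a⁆ = δ := derivation_ext fun i => by
      rw [Derivation.commutator_apply, h]
    rw [← e, Derivation.commutator_apply, add_sub_cancel]
  refine ⟨(key c 0 fun i => ?_).trans (add_zero _),
    (key (c + 1) (-pderiv (c + 2)) fun i => ?_).trans (sub_eq_add_neg _ _).symm,
    key (c + 2) (pderiv (c + 1)) fun i => ?_⟩ <;>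
  · rw [rt, mkDerivation_X]
    fin_cases c <;> fin_cases i <;> simp [cr0, cr1, cr2, pderiv_X]

namespace Gh

variable (g : Gh W)

/-- The number operator. -/
def N : End ℂ W := ∑ a, g.e a * g.ι a

theorem N_e (b : Fin 3) (w : W) : g.N (g.e b w) = g.e b (g.N w) + g.e b w := by
  simp only [N, LinearMap.sum_apply, End.mul_apply, g.ιe, map_sub, map_sum, g.ee _ b,
    Finset.sum_sub_distrib, Finset.sum_neg_distrib, apply_ite (g.e _), map_zero,
    Finset.sum_ite_eq', Finset.mem_univ, if_true]
  abel

/-- The Koszul differential. -/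
def d0 : End ℂ (PP ⊗[ℂ] W) := ∑ a, TensorProduct.map (LinearMap.mulLeft ℂ (mo a)) (g.ι a)

/-- The action of the rotations. -/
def L (c : Fin 3) : End ℂ (PP ⊗[ℂ] W) := (ro c).toLinearMap.rTensor W + (g.l c).lTensor PP

theorem kz (k m : ℕ) (hkm : k + m ≠ 0) (s : PP ⊗[ℂ] W) (hN : g.N.lTensor PP s = (k : ℂ) • s)
    (hL : ∀ c, g.L c s = 0) (hu : Eu.rTensor W s = (m : ℂ) • s)
    (hE : dE.toLinearMap.rTensor W s = 0) (hF : dF.toLinearMap.rTensor W s = 0)
    (hd : g.d0 s = 0) : ∃ b, g.N.lTensor PP b = ((k + 1 : ℕ) : ℂ) • b ∧ (∀ c, g.L c b = 0) ∧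
      Eu.rTensor W b = ((m : ℂ) - 2) • b ∧ g.d0 b = s := by
  obtain ⟨s, rfl⟩ := ker_ten (f := mv.toLinearMap) (fun v h h' => fft2 h h') hE hF
  let J : TT ⊗[ℂ] W →ₗ[ℂ] PP ⊗[ℂ] W := mv.toLinearMap.rTensor W
  have hJ : Function.Injective J := Module.Flat.rTensor_preserves_injective_linearMap _
    ((injective_iff_map_eq_zero _).2 fun a h => mv_inj h)
  let d' : End ℂ (TT ⊗[ℂ] W) := ∑ a, TensorProduct.map (LinearMap.mulLeft ℂ (X a)) (g.ι a)
  let h' : End ℂ (TT ⊗[ℂ] W) := ∑ a, TensorProduct.map (pderiv a).toLinearMap (g.e a)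
  let L' : Fin 3 → End ℂ (TT ⊗[ℂ] W) := fun c =>
    (rt c).toLinearMap.rTensor W + (g.l c).lTensor TT
  let u' : End ℂ (TT ⊗[ℂ] W) := (eu fun _ => 1).toLinearMap.rTensor W
  have j1 : ∀ z, g.d0 (J z) = J (d' z) := fun z => by
    induction z using TensorProduct.induction_on with
    | zero => simp
    | add z z' h h' => simp only [map_add, h, h']
    | tmul f w => simp [J, d', d0, mv_X]
  have j2 : ∀ c z, g.L c (J z) = J (L' c z) := fun c z => by
    induction z using TensorProduct.induction_on with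
    | zero => simp
    | add z z' h h' => simp only [map_add, h, h']
    | tmul f w => simp [J, L', L, ro_mv]
  have j3 : ∀ z, Eu.rTensor W (J z) = J ((2 : ℂ) • u' z) := fun z => by
    induction z using TensorProduct.induction_on with
    | zero => simp
    | add z z' h h' => simp only [map_add, h, h', smul_add]
    | tmul f w => simp [J, u', eu_mv, smul_tmul']
  have j4 : ∀ z, g.N.lTensor PP (J z) = J (g.N.lTensor TT z) := fun z => by
    induction z using TensorProduct.induction_on with
    | zero => simp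
    | add z z' h h' => simp only [map_add, h, h']
    | tmul f w => simp [J]
  have k1 : ∀ z, d' (h' z) + h' (d' z) = u' z + g.N.lTensor TT z := fun z => by
    induction z using TensorProduct.induction_on with
    | zero => simp
    | add z z' h h' => simp only [map_add]; rw [add_add_add_comm, h, h']; abel
    | tmul f w =>
      simp only [d', h', u', N, Fin.sum_univ_three, LinearMap.add_apply, map_add, map_tmul,
        LinearMap.mulLeft_apply, LinearMap.rTensor_tmul, LinearMap.lTensor_tmul, End.mul_apply,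
        Derivation.coeFn_coe, eu_sum, g.ιe, Derivation.leibniz, pderiv_X, smul_eq_mul, add_tmul,
        tmul_add, tmul_sub]
      simp
      abel
  have k2 : ∀ c z, L' c (h' z) = h' (L' c z) := fun c z => by
    induction z using TensorProduct.induction_on with
    | zero => simp
    | add z z' h h' => simp only [map_add, h, h']
    | tmul f w =>
      have e : ∀ T : Fin 3 → End ℂ (TT ⊗[ℂ] W), ∑ a, T a = T c + T (c + 1) + T (c + 2) := by
        intro T
        fin_cases c <;> simp [Fin.sum_univ_three] <;> abel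
      simp only [h', L', e, LinearMap.add_apply, map_add, map_tmul, LinearMap.rTensor_tmul,
        LinearMap.lTensor_tmul, Derivation.coeFn_coe, (rt_pd c f).1, (rt_pd c f).2.1,
        (rt_pd c f).2.2, g.l0, g.l1, g.l2, add_tmul, sub_tmul, tmul_add, tmul_sub]
      abel
  have k3 : ∀ z, u' (h' z) = h' (u' z) + ((-1 : ℤ) : ℂ) • h' z :=
    Dg.sum _ fun a => (dg_pd (fun _ => 1) a).ten (g.e a)
  have k4 : ∀ z, g.N.lTensor TT (h' z) = h' (g.N.lTensor TT z) + h' z := fun z => by
    induction z using TensorProduct.induction_on with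
    | zero => simp
    | add z z' h h' => simp only [map_add, h, h']; abel
    | tmul f w =>
      simp only [h', LinearMap.sum_apply, map_sum, map_tmul, LinearMap.lTensor_tmul, N_e,
        tmul_add, Finset.sum_add_distrib]
  change g.N.lTensor PP (J s) = (k : ℂ) • J s at hN
  change ∀ c, g.L c (J s) = 0 at hL
  change Eu.rTensor W (J s) = (m : ℂ) • J s at hu
  change g.d0 (J s) = 0 at hd
  have a1 : g.N.lTensor TT s = (k : ℂ) • s := hJ (by rw [← j4, hN, map_smul])
  have a2 : ∀ c, L' c s = 0 := fun c => hJ (by rw [← j2, hL, map_zero])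
  have a3 : (2 : ℂ) • u' s = (m : ℂ) • s := hJ (by rw [← j3, hu, map_smul])
  have a4 : d' s = 0 := hJ (by rw [← j1, hd, map_zero])
  have a5 : u' s = ((m : ℂ) / 2) • s := by
    rw [div_eq_inv_mul, mul_smul, ← a3, smul_smul, inv_mul_cancel₀ two_ne_zero, one_smul]
  have hc : (m : ℂ) / 2 + k ≠ 0 := by
    intro h
    have h' : ((m + 2 * k : ℕ) : ℂ) = 0 := by push_cast; linear_combination 2 * h
    have := Nat.cast_eq_zero.1 h'
    omega
  refine ⟨((m : ℂ) / 2 + k)⁻¹ • J (h' s), ?_, fun c => ?_, ?_, ?_⟩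
  · rw [map_smul, j4, k4, a1, map_smul, map_add, map_smul]
    push_cast
    module
  · rw [map_smul, j2, k2, a2, map_zero, map_zero, smul_zero]
  · rw [map_smul, j3, k3, a5, map_smul, map_smul, map_add, map_smul, map_smul]
    push_cast
    match_scalars
    ring
  · have h := k1 s
    rw [a4, map_zero, add_zero, a5, a1, ← add_smul] at h
    rw [map_smul, j1, h, map_smul, smul_smul, inv_mul_cancel₀ hc, one_smul]

end Gh

end

end Vale.Agent.P286E17
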