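import Vale.Agent.P286E17.Aug
import Vale.Agent.P286EX7.Br1

/-!
# Matrices of differential operators with ghosts
-/

set_option linter.all false

namespace Vale.Agent.P286E17

open Matrix MvPolynomial TensorProduct Module Vale.Agent.P286EI Vale.Agent.P286ES Vale.Agent.P286EL

noncomputable section

section Lin

variable {N N' : Type} [AddCommGroup N] [Module ℂ N] [AddCommGroup N'] [Module ℂ N']

theorem dL_add (κ : ℂ) (r r' r'' : Fin 3 → End ℂ N) (h : ∀ a x, r'' a x = r a x + r' a x)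
    (x : L3 N) : dL κ r'' x = ∑ a, L3.map (r a) (L3.ct ℂ N a x) + dL κ r' x := by
  rw [Fin.sum_univ_three]
  refine L3.ext8 ?_ ?_ ?_ ?_ ?_ ?_ ?_ ?_ <;>
    simp [dL_apply, L3.ct_apply, L3.cx_apply, L3.map_apply, h, f3] <;> abel

theorem map_cg {f g : N →ₗ[ℂ] N'} (h : ∀ x, f x = g x) (x : L3 N) : L3.map f x = L3.map g x := by
  rw [LinearMap.ext h]

theorem num_iff {k : ℕ} {x : L3 N} :
    ∑ a, L3.wg ℂ N a (L3.ct ℂ N a x) = (k : ℂ) • x ↔ x ∈ L3.gr ℂ N (-k) := by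
  have e : ∑ a, L3.wg ℂ N a (L3.ct ℂ N a x) = ⟨0, x.v, (2 : ℂ) • x.w, (3 : ℂ) • x.t⟩ := by
    rw [Fin.sum_univ_three]
    refine L3.ext8 ?_ ?_ ?_ ?_ ?_ ?_ ?_ ?_ <;>
      simp [L3.wg_apply, L3.ct_apply, L3.cx_apply] <;> module
  have z : ∀ {V : Type} [AddCommGroup V] [Module ℂ V] (j : ℕ) (v : V),
      (j : ℂ) • v = (k : ℂ) • v ↔ (-(k : ℤ) ≠ -(j : ℤ) → v = 0) := fun j v => by
    rw [← sub_eq_zero, ← sub_smul, smul_eq_zero, sub_eq_zero, Nat.cast_inj]
    exact ⟨fun h h' => h.resolve_left (by omega), fun h => or_iff_not_imp_left.2 fun h' => h (by omega)⟩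
  rw [e, L3.ext_iff, L3.mem_gr]
  refine and_congr ?_ (and_congr ?_ (and_congr (z 2 x.w) (z 3 x.t)))
  · simpa using z 0 x.s
  · simpa using z 1 x.v

theorem co_map (f : N →ₗ[ℂ] N') (x : L3 N) (S : Finset (Fin 3)) :
    L3.co ℂ N' (L3.map f x) S = f (L3.co ℂ N x S) := by
  simp only [L3.co, LinearEquiv.coe_mk, LinearMap.coe_mk, AddHom.coe_mk, L3.map_apply]
  split_ifs <;> simp

variable (n : Type) [Fintype n] [DecidableEq n]

variable (N) in
/-- The coordinates. -/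
def cd : L3 (Matrix n n N) ≃ₗ[ℂ] (Finset (Fin 3) × n × n → N) where
  toFun z i := L3.co ℂ _ z i.1 i.2.1 i.2.2
  invFun f := (L3.co ℂ _).symm fun S => of fun i j => f (S, i, j)
  map_add' x y := by ext i; rw [map_add]; rfl
  map_smul' c x := by ext i; rw [map_smul]; rfl
  left_inv z := (L3.co ℂ _).symm_apply_apply z
  right_inv f := by ext i; simp

/-- The matrix with entries `c i j • u`. -/
def sm (u : N) : Matrix n n ℂ →ₗ[ℂ] Matrix n n N := (LinearMap.toSpanSingleton ℂ N u).mapMatrix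

theorem sm_apply (u : N) (c : Matrix n n ℂ) (i j : n) : sm n u c i j = c i j • u := rfl

/-- The symbols. -/
def ph (no : PP ≃ₗ[ℂ] N) : PP ⊗[ℂ] L3 (Matrix n n ℂ) ≃ₗ[ℂ] L3 (Matrix n n N) :=
  (TensorProduct.congr no (cd ℂ n)).trans ((piScalarRight ℂ ℂ N _).trans (cd N n).symm)

theorem ph_tmul (no : PP ≃ₗ[ℂ] N) (f : PP) (w : L3 (Matrix n n ℂ)) :
    ph n no (f ⊗ₜ w) = L3.map (sm n (no f)) w := by
  rw [ph, LinearEquiv.trans_apply, LinearEquiv.trans_apply, LinearEquiv.symm_apply_eq]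
  ext i
  rw [congr_tmul, piScalarRight_apply, piScalarRightHom_tmul]
  exact (congrFun (congrFun (co_map (sm n (no f)) w i.1) i.2.1) i.2.2).symm

theorem ad_wg' (c a : Fin 3) (x : L3 N) : L3.ad ℂ N c (L3.wg ℂ N a x) = L3.wg ℂ N a (L3.ad ℂ N c x) +
    ((if a = c + 1 then L3.wg ℂ N (c + 2) x else 0) - if a = c + 2 then L3.wg ℂ N (c + 1) x else 0) := by
  fin_cases c <;> fin_cases a <;> refine L3.ext8 ?_ ?_ ?_ ?_ ?_ ?_ ?_ ?_ <;>
    simp [L3.wg_apply, L3.cx_apply, L3.ad_apply]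

/-- The ghost operators. -/
def gh {κ : ℂ} (hκ : κ ≠ 0) (T : Fin 3 → End ℂ N) : Gh (L3 N) where
  ι a := κ • L3.ct ℂ N a
  e a := κ⁻¹ • L3.wg ℂ N a
  l c := L3.map (T c) - L3.ad ℂ N c
  ιe a b w := by
    simp only [LinearMap.smul_apply, map_smul, smul_smul, mul_inv_cancel₀ hκ, inv_mul_cancel₀ hκ,
      one_smul, L3.ct_wg]
  ee a b w := by simp only [LinearMap.smul_apply, map_smul, L3.wg_wg a b, smul_neg]
  l0 c w := by
    have h : ∀ c : Fin 3, ¬c = c + 1 ∧ ¬c = c + 2 := by decide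
    simp only [LinearMap.smul_apply, map_smul, LinearMap.sub_apply, L3.map_wg, ad_wg', map_sub,
      if_neg (h c).1, if_neg (h c).2, sub_zero, add_zero, smul_sub]
  l1 c w := by
    have h : ∀ c : Fin 3, ¬c + 1 = c + 2 := by decide
    simp only [LinearMap.smul_apply, map_smul, LinearMap.sub_apply, L3.map_wg, ad_wg', map_sub,
      if_neg (h c), if_true, sub_zero, smul_sub, smul_add, sub_sub]
  l2 c w := by
    have h : ∀ c : Fin 3, ¬c + 2 = c + 1 := by decide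
    simp only [LinearMap.smul_apply, map_smul, LinearMap.sub_apply, L3.map_wg, ad_wg', map_sub,
      if_neg (h c), if_true, zero_sub, smul_sub, smul_add, smul_neg]
    abel

end Lin

variable {D : Type} [Ring D] [Algebra ℂ D] (n : Type) [Fintype n] [DecidableEq n]

theorem sc_sm (y u : D) (c : Matrix n n ℂ) : scalar n y * sm n u c = sm n (y * u) c := by
  ext i j
  rw [scalar_apply, diagonal_mul, sm_apply, sm_apply, mul_smul_comm]

theorem sm_sc (y u : D) (c : Matrix n n ℂ) : sm n u c * scalar n y = sm n (u * y) c := by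
  ext i j
  rw [scalar_apply, mul_diagonal, sm_apply, sm_apply, smul_mul_assoc]

theorem sm_one (c : Matrix n n ℂ) : sm n (1 : D) c = c.map (algebraMap ℂ D) := by
  ext i j
  rw [sm_apply, map_apply, Algebra.algebraMap_eq_smul_one]

theorem sm_mul (u : D) (c c' : Matrix n n ℂ) :
    sm n u (c * c') = sm n u c * c'.map (algebraMap ℂ D) := by
  ext i j
  simp only [sm_apply, mul_apply, map_apply, Finset.sum_smul, Algebra.algebraMap_eq_smul_one,
    smul_mul_assoc, mul_smul_comm, mul_one, smul_smul, mul_comm]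

theorem mul_sm (u : D) (c c' : Matrix n n ℂ) :
    sm n u (c * c') = c.map (algebraMap ℂ D) * sm n u c' := by
  ext i j
  simp only [sm_apply, mul_apply, map_apply, Finset.sum_smul, Algebra.algebraMap_eq_smul_one,
    smul_mul_assoc, mul_smul_comm, one_mul, smul_smul, mul_comm]

/-- The scalars. -/
def i0 : D →ₐ[ℂ] L3 (Matrix n n D) := (L3.inA _).comp (scalarAlgHom n ℂ)

theorem i0_apply (y : D) : i0 n y = L3.inl ℂ _ (scalar n y) := rfl

theorem i0_mul (y u : D) (w : L3 (Matrix n n ℂ)) :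
    i0 n y * L3.map (sm n u) w = L3.map (sm n (y * u)) w :=
  (L3.inl_mul _ _).trans (map_cg (f := (LinearMap.mulLeft ℂ _).comp (sm n u)) (sc_sm n y u) w)

theorem mul_i0 (y u : D) (w : L3 (Matrix n n ℂ)) :
    L3.map (sm n u) w * i0 n y = L3.map (sm n (u * y)) w :=
  (L3.mul_inl _ _).trans (map_cg (f := (L3.rm _ _).comp (sm n u)) (sm_sc n y u) w)

/-- A Weyl algebra with normal ordering. -/
structure NW (D : Type) [Ring D] [Algebra ℂ D] where
  x : Fin 3 → D
  d : Fin 3 → D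
  wy : Wy x d
  no : PP ≃ₗ[ℂ] D
  no_one : no 1 = 1
  no_x : ∀ a f, no (xv a * f) = x a * no f
  no_d : ∀ a f, no (kv a * f) = no f * d a

namespace NW

variable (ν : NW D)

/-- The normal ordering on matrices with ghosts. -/
def bw : BW (L3 (Matrix n n D)) (L3 (Matrix n n ℂ)) where
  x a := i0 n (ν.x a)
  p a := i0 n (ν.d a)
  xx a b := by rw [← map_mul, ν.wy.yy, map_mul]
  pp a b := by rw [← map_mul, ν.wy.dd, map_mul]
  px a b := by rw [← map_mul, ν.wy.dy, map_add, map_mul, apply_ite (i0 n), map_one, map_zero]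
  Φ := ph n ν.no
  Φx a f w := by rw [ph_tmul, ph_tmul, ν.no_x, i0_mul]
  Φk a f w := by rw [ph_tmul, ph_tmul, ν.no_d, mul_i0]
  cx a w := by rw [ph_tmul, ν.no_one, i0_mul, mul_i0, mul_one, one_mul]
  cp a w := by rw [ph_tmul, ν.no_one, i0_mul, mul_i0, mul_one, one_mul]

theorem Φ_eq (f : PP) (w : L3 (Matrix n n ℂ)) :
    (ν.bw n).Φ (f ⊗ₜ w) = L3.map (sm n (ν.no f)) w := ph_tmul n ν.no f w

theorem τ_eq (S : End ℂ (L3 (Matrix n n ℂ))) (S' : End ℂ (L3 (Matrix n n D)))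
    (h : ∀ (u : D) w, L3.map (sm n u) (S w) = S' (L3.map (sm n u) w)) (z : L3 (Matrix n n D)) :
    (ν.bw n).τ S z = S' z :=
  LinearMap.congr_fun ((ν.bw n).ext fun f w => by rw [BW.τ_Φ, Φ_eq, Φ_eq, h]) z

theorem μ_eq (κ : ℂ) (a : Fin 3) : κ • (ν.bw n).μ a = -i0 n (mu κ ν.x ν.d a) := by
  rw [mu, map_smul, ← smul_neg, map_sub, map_mul, map_mul, neg_sub]
  rfl

variable {n} {κ : ℂ} (hκ : κ ≠ 0) (T : Fin 3 → Matrix n n ℂ) {m : Fin 3 → Matrix n n D}
  (hm : ∀ a, m a = (T a).map (algebraMap ℂ D) - scalar n (mu κ ν.x ν.d a))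

/-- The ghost operators. -/
def g : Gh (L3 (Matrix n n ℂ)) := gh hκ fun c => κ⁻¹ • ad (T c)

include hm

theorem mem_A {k : ℕ} {z : L3 (Matrix n n D)} :
    z ∈ (ν.bw n).A (g hκ T) k ↔ z ∈ L3.gr ℂ _ (-k) ∧ Inv κ m z := by
  rw [BW.mem_A, ← num_iff, ν.τ_eq n _ (∑ a, L3.wg ℂ _ a * L3.ct ℂ _ a)]
  · refine and_congr (by rw [LinearMap.sum_apply]; rfl) (forall_congr' fun c => ?_)
    rw [ν.τ_eq n _ (κ⁻¹ • ad (L3.inl ℂ _ ((T c).map (algebraMap ℂ D))) - L3.ad ℂ _ c)]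
    · rw [← smul_eq_zero_iff_right hκ, lieL_apply, ← L3.mul_inl, hm, map_sub, ← i0_apply,
        eq_comm (b := _ * z), ← sub_eq_zero (a := _ * z)]
      refine Eq.congr_left ?_
      rw [smul_add, ad_apply, smul_sub, ← smul_mul_assoc, ← mul_smul_comm, μ_eq,
        LinearMap.sub_apply, LinearMap.smul_apply, smul_sub, smul_smul, mul_inv_cancel₀ hκ, one_smul,
        ad_apply]
      noncomm_ring
    · intro u w
      change L3.map _ (L3.map _ w - L3.ad ℂ _ c w) = _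
      rw [map_sub, L3.map_ad, LinearMap.sub_apply, LinearMap.smul_apply, ad_apply, L3.inl_mul,
        L3.mul_inl]
      congr 1
      refine L3.ext ?_ (funext fun a => ?_) (funext fun a => ?_) ?_ <;>
        simp [L3.map_apply, ad_apply, ← mul_sm, ← sm_mul]
  · intro u w
    simp only [Gh.N, g, gh, LinearMap.sum_apply, End.mul_apply, LinearMap.smul_apply, map_smul,
      map_sum, L3.map_wg, L3.map_ct, smul_smul, mul_inv_cancel₀ hκ, inv_mul_cancel₀ hκ, one_smul]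

theorem dif_eq (z : L3 (Matrix n n D)) :
    (ν.bw n).dif (g hκ T) (dL κ fun a => L3.rm _ (T a)) z = dL κ (fun a => L3.rm _ (m a)) z := by
  rw [dL_add κ (fun a => L3.rm _ (-scalar n (mu κ ν.x ν.d a)))
    (fun a => L3.rm _ ((T a).map (algebraMap ℂ D))) (fun a => L3.rm _ (m a))
    fun a x => by simp only [L3.rm_apply, hm]; noncomm_ring]
  rw [BW.dif, LinearMap.add_apply, LinearMap.sum_apply,
    ν.τ_eq n _ (dL κ fun a => L3.rm _ ((T a).map (algebraMap ℂ D))) fun u =>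
      map_dL (sm n u) fun a => (sm_mul n u · (T a))]
  congr 1
  refine Finset.sum_congr rfl fun a _ => ?_
  rw [End.mul_apply, ν.τ_eq n _ (κ • L3.ct ℂ _ a), LinearMap.mulRight_apply, LinearMap.smul_apply,
    smul_mul_assoc, ← mul_smul_comm, μ_eq, ← L3.mul_inl, map_neg, i0_apply]
  intro u w
  change L3.map _ (κ • L3.ct ℂ _ a w) = _
  rw [map_smul, L3.map_ct]
  rfl

end NW

end

end Vale.Agent.P286E17
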