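import Vale.Agent.P286E17.Kz

/-!
# Normal ordering in an algebra which contains the Weyl algebra
-/

set_option linter.all false

namespace Vale.Agent.P286E17

open Matrix MvPolynomial TensorProduct Vale.Agent.P286EI Vale.Agent.P286ES Module

noncomputable section

/-- Multiplication by `x_a`. -/
def mX (a : Fin 3) : End ℂ PP := LinearMap.mulLeft ℂ (xv a)

/-- Multiplication by `ξ_a`. -/
def mK (a : Fin 3) : End ℂ PP := LinearMap.mulLeft ℂ (kv a)

/-- The derivative in `x_a`. -/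
def dX (a : Fin 3) : End ℂ PP := (pderiv (.inl a)).toLinearMap

/-- The derivative in `ξ_a`. -/
def dK (a : Fin 3) : End ℂ PP := (pderiv (.inr a)).toLinearMap

theorem der_eq (δ : Derivation ℂ PP PP) (f : PP) :
    δ f = ∑ a, δ (xv a) * dX a f + ∑ a, δ (kv a) * dK a f := by
  have h : ∀ (v : Fin 3 ⊕ Fin 3 → Derivation ℂ PP PP) (g : PP), (∑ i, v i) g = ∑ i, v i g :=
    fun v g => (congrFun (map_sum (Derivation.coeFnAddMonoidHom (R := ℂ) (A := PP) (M := PP)) v
      Finset.univ) g).trans (Finset.sum_apply g _ _)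
  have e : δ = ∑ i, δ (X i) • pderiv i := derivation_ext fun j => by
    rw [h]
    simp only [Derivation.smul_apply, pderiv_X, Pi.single_apply, smul_eq_mul, mul_ite, mul_one,
      mul_zero, Finset.sum_ite_eq, Finset.mem_univ, if_true]
  conv_lhs => rw [e, h, Fintype.sum_sum_type]
  rfl

theorem dE_eq : dE.toLinearMap = ∑ a, mX a * dK a := LinearMap.ext fun f => by
  rw [Derivation.coeFn_coe, der_eq]
  simp [dE_x, dE_k, mX]

theorem dF_eq : dF.toLinearMap = ∑ a, mK a * dX a := LinearMap.ext fun f => by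
  rw [Derivation.coeFn_coe, der_eq]
  simp [dF_x, dF_k, mK]

theorem ro_eq (c : Fin 3) : (ro c).toLinearMap = mX (c + 1) * dX (c + 2) - mX (c + 2) * dX (c + 1) +
    (mK (c + 1) * dK (c + 2) - mK (c + 2) * dK (c + 1)) := LinearMap.ext fun f => by
  have h1 : ∀ a, ro c (xv a) = ((C ∘ (Pi.single c 1 : Fin 3 → ℂ)) ⨯₃ xv) a := congrFun (rot_x _)
  have h2 : ∀ a, ro c (kv a) = ((C ∘ (Pi.single c 1 : Fin 3 → ℂ)) ⨯₃ kv) a := congrFun (rot_k _)
  rw [Derivation.coeFn_coe, der_eq]
  simp only [h1, h2, Fin.sum_univ_three, cr0, cr1, cr2]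
  fin_cases c <;> simp [mX, mK] <;> ring

theorem mo_eq (a : Fin 3) : mo a = xv (a + 1) * kv (a + 2) - xv (a + 2) * kv (a + 1) :=
  all3 (P := fun a => mo a = xv (a + 1) * kv (a + 2) - xv (a + 2) * kv (a + 1))
    (cr0 _ _) (cr1 _ _) (cr2 _ _) a

theorem dK_mX (a b : Fin 3) : dK a * mX b = mX b * dK a := LinearMap.ext fun f => by
  simp [dK, mX, xv, pderiv_X]

theorem dX_mK (a b : Fin 3) : dX a * mK b = mK b * dX a := LinearMap.ext fun f => by
  simp [dX, mK, kv, pderiv_X]

theorem mK_mX (a b : Fin 3) : mK a * mX b = mX b * mK a := LinearMap.ext fun f => by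
  simp [mK, mX, mul_left_comm]

/-- The commutator with an element. -/
def ad {B : Type} [Ring B] [Algebra ℂ B] (b : B) : End ℂ B :=
  LinearMap.mulLeft ℂ b - LinearMap.mulRight ℂ b

theorem ad_apply {B : Type} [Ring B] [Algebra ℂ B] (b z : B) : ad b z = b * z - z * b := rfl

/-- An algebra with normal ordering. -/
structure BW (B W : Type) [Ring B] [Algebra ℂ B] [AddCommGroup W] [Module ℂ W] where
  x : Fin 3 → B
  p : Fin 3 → B
  xx : ∀ a b, x a * x b = x b * x a
  pp : ∀ a b, p a * p b = p b * p a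
  px : ∀ a b, p a * x b = x b * p a + if a = b then 1 else 0
  Φ : PP ⊗[ℂ] W ≃ₗ[ℂ] B
  Φx : ∀ a f w, Φ ((xv a * f) ⊗ₜ w) = x a * Φ (f ⊗ₜ w)
  Φk : ∀ a f w, Φ ((kv a * f) ⊗ₜ w) = Φ (f ⊗ₜ w) * p a
  cx : ∀ a w, x a * Φ (1 ⊗ₜ w) = Φ (1 ⊗ₜ w) * x a
  cp : ∀ a w, p a * Φ (1 ⊗ₜ w) = Φ (1 ⊗ₜ w) * p a

namespace BW

variable {B W : Type} [Ring B] [Algebra ℂ B] [AddCommGroup W] [Module ℂ W] (β : BW B W)

/-- Operators on the symbols. -/
def cj : End ℂ (PP ⊗[ℂ] W) ≃ₐ[ℂ] End ℂ B := β.Φ.conjAlgEquiv ℂ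

theorem cj_Φ (T : End ℂ (PP ⊗[ℂ] W)) (z : PP ⊗[ℂ] W) : β.cj T (β.Φ z) = β.Φ (T z) := by
  simp [cj, LinearEquiv.conjAlgEquiv_apply]

/-- Operators on the polynomial part. -/
def σ : End ℂ PP →ₐ[ℂ] End ℂ B := β.cj.toAlgHom.comp (End.rTensorAlgHom ℂ PP W)

/-- Operators on the constant part. -/
def τ : End ℂ W →ₐ[ℂ] End ℂ B := β.cj.toAlgHom.comp (End.lTensorAlgHom ℂ W PP)

theorem σ_eq (T : End ℂ PP) : β.σ T = β.cj (T.rTensor W) := rfl

theorem τ_eq (S : End ℂ W) : β.τ S = β.cj (S.lTensor PP) := rfl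

theorem σ_Φ (T : End ℂ PP) (f : PP) (w : W) : β.σ T (β.Φ (f ⊗ₜ w)) = β.Φ (T f ⊗ₜ w) :=
  β.cj_Φ _ _

theorem τ_Φ (S : End ℂ W) (f : PP) (w : W) : β.τ S (β.Φ (f ⊗ₜ w)) = β.Φ (f ⊗ₜ S w) :=
  β.cj_Φ _ _

theorem ext {V : Type} [AddCommGroup V] [Module ℂ V] {T T' : B →ₗ[ℂ] V}
    (h : ∀ f w, T (β.Φ (f ⊗ₜ w)) = T' (β.Φ (f ⊗ₜ w))) : T = T' := LinearMap.ext fun z => by
  obtain ⟨z, rfl⟩ := β.Φ.surjective z
  induction z using TensorProduct.induction_on with
  | zero => simp
  | tmul f w => exact h f w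
  | add z z' h h' => simp only [map_add, h, h']

theorem σ_τ (T : End ℂ PP) (S : End ℂ W) : β.σ T * β.τ S = β.τ S * β.σ T :=
  β.ext fun f w => by simp only [End.mul_apply, σ_Φ, τ_Φ]

theorem lx (a : Fin 3) : LinearMap.mulLeft ℂ (β.x a) = β.σ (mX a) :=
  β.ext fun f w => by rw [σ_Φ]; exact (β.Φx a f w).symm

theorem rp (a : Fin 3) : LinearMap.mulRight ℂ (β.p a) = β.σ (mK a) :=
  β.ext fun f w => by rw [σ_Φ]; exact (β.Φk a f w).symm

theorem lp (a : Fin 3) : LinearMap.mulLeft ℂ (β.p a) = β.σ (mK a + dX a) :=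
  β.ext fun f w => by
    rw [σ_Φ]
    change β.p a * _ = β.Φ ((kv a * f + pderiv (.inl a) f) ⊗ₜ w)
    induction f using MvPolynomial.induction_on with
    | C z =>
      rw [derivation_C, add_zero, β.Φk, C_eq_smul_one, ← smul_tmul', map_smul, mul_smul_comm,
        smul_mul_assoc, β.cp]
    | add f f' h h' =>
      rw [add_tmul, map_add, mul_add, h, h', ← map_add, ← add_tmul, map_add, mul_add]
      congr 2
      ring
    | mul_X f i h =>
      rcases i with b | b
      · rw [mul_comm f, show (X (.inl b) : PP) = xv b from rfl, β.Φx, ← mul_assoc, β.px, add_mul,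
          mul_assoc, h, ← β.Φx, Derivation.leibniz, xv, pderiv_X]
        by_cases e : a = b
        · subst e
          rw [if_pos rfl, one_mul, ← map_add, ← add_tmul]
          congr 2
          simp
          ring
        · rw [if_neg e, zero_mul, add_zero]
          congr 2
          simp [e, Ne.symm e]
          ring
      · rw [mul_comm f, show (X (.inr b) : PP) = kv b from rfl, β.Φk, ← mul_assoc, h, ← β.Φk,
          Derivation.leibniz, kv, kv, pderiv_X]
        congr 2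
        simp
        ring

theorem rx (a : Fin 3) : LinearMap.mulRight ℂ (β.x a) = β.σ (mX a + dK a) :=
  β.ext fun f w => by
    rw [σ_Φ]
    change _ * β.x a = β.Φ ((xv a * f + pderiv (.inr a) f) ⊗ₜ w)
    induction f using MvPolynomial.induction_on with
    | C z =>
      rw [derivation_C, add_zero, β.Φx, C_eq_smul_one, ← smul_tmul', map_smul, mul_smul_comm,
        smul_mul_assoc, β.cx]
    | add f f' h h' =>
      rw [add_tmul, map_add, add_mul, h, h', ← map_add, ← add_tmul, map_add, mul_add]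
      congr 2
      ring
    | mul_X f i h =>
      rcases i with b | b
      · rw [mul_comm f, show (X (.inl b) : PP) = xv b from rfl, β.Φx, mul_assoc, h, ← β.Φx,
          Derivation.leibniz, xv, xv, pderiv_X]
        congr 2
        simp
        ring
      · rw [mul_comm f, show (X (.inr b) : PP) = kv b from rfl, β.Φk, mul_assoc, β.px, mul_add,
          ← mul_assoc, h, ← β.Φk, Derivation.leibniz, kv, pderiv_X]
        by_cases e : b = a
        · subst e
          rw [if_pos rfl, mul_one, ← map_add, ← add_tmul]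
          congr 2
          simp
          ring
        · rw [if_neg e, mul_zero, add_zero]
          congr 2
          simp [e, Ne.symm e]
          ring

theorem ad_mul {a b : B} {La Lb Ra Rb : End ℂ PP} (h1 : LinearMap.mulLeft ℂ a = β.σ La)
    (h2 : LinearMap.mulLeft ℂ b = β.σ Lb) (h3 : LinearMap.mulRight ℂ a = β.σ Ra)
    (h4 : LinearMap.mulRight ℂ b = β.σ Rb) : ad (a * b) = β.σ (La * Lb - Rb * Ra) := by
  rw [map_sub, map_mul, map_mul, ← h1, ← h2, ← h3, ← h4]
  exact LinearMap.ext fun z => by simp [ad, mul_assoc]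

theorem ad_sum (v : Fin 3 → B) : ad (∑ a, v a) = ∑ a, ad (v a) :=
  LinearMap.ext fun z => by
    simp [ad_apply, Finset.sum_mul, Finset.mul_sum, LinearMap.sum_apply]

theorem ad_sub (a b : B) : ad (a - b) = ad a - ad b :=
  LinearMap.ext fun z => by simp only [ad_apply, LinearMap.sub_apply]; noncomm_ring

/-- The square of the position. -/
def q : B := ∑ a, β.x a * β.x a

/-- The Laplacian. -/
def lp2 : B := ∑ a, β.p a * β.p a

/-- The Euler field. -/
def eu : B := ∑ a, β.x a * β.p a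

/-- The rotations. -/
def μ (a : Fin 3) : B := β.x (a + 1) * β.p (a + 2) - β.x (a + 2) * β.p (a + 1)

theorem ad_q : ad β.q = β.σ ((-2 : ℂ) • dE.toLinearMap) + β.σ (-∑ a, dK a * dK a) := by
  rw [q, ad_sum, ← map_add, dE_eq, Finset.smul_sum, ← Finset.sum_neg_distrib,
    ← Finset.sum_add_distrib, map_sum]
  refine Finset.sum_congr rfl fun a _ => ?_
  rw [β.ad_mul (β.lx a) (β.lx a) (β.rx a) (β.rx a), add_mul, mul_add, mul_add, dK_mX]
  congr 1
  module

theorem ad_lp2 : ad β.lp2 = β.σ ((2 : ℂ) • dF.toLinearMap) + β.σ (∑ a, dX a * dX a) := by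
  rw [lp2, ad_sum, ← map_add, dF_eq, Finset.smul_sum, ← Finset.sum_add_distrib, map_sum]
  refine Finset.sum_congr rfl fun a _ => ?_
  rw [β.ad_mul (β.lp a) (β.lp a) (β.rp a) (β.rp a), add_mul, mul_add, mul_add, dX_mK]
  congr 1
  module

theorem ad_xp (a b : Fin 3) : ad (β.x a * β.p b) = β.σ (mX a * dX b - mK b * dK a) := by
  rw [β.ad_mul (β.lx a) (β.lp b) (β.rx a) (β.rp b), mul_add, mul_add, mK_mX]
  congr 1
  abel

theorem ad_eu : ad β.eu = β.σ (∑ a, (mX a * dX a - mK a * dK a)) := by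
  rw [eu, ad_sum, map_sum]
  exact Finset.sum_congr rfl fun a _ => β.ad_xp a a

theorem ad_μ (c : Fin 3) : ad (β.μ c) = β.σ (ro c).toLinearMap := by
  rw [μ, ad_sub, ad_xp, ad_xp, ← map_sub, ro_eq]
  exact congrArg β.σ (by abel)

theorem r_μ (a : Fin 3) : LinearMap.mulRight ℂ (β.μ a) = β.σ (LinearMap.mulLeft ℂ (mo a)) +
    β.σ (mK (a + 2) * dK (a + 1) - mK (a + 1) * dK (a + 2)) := by
  have h : ∀ a b, LinearMap.mulRight ℂ (β.x a * β.p b) = β.σ (mK b * (mX a + dK a)) := fun a b => by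
    rw [map_mul, ← β.rp, ← β.rx]
    exact LinearMap.ext fun z => (mul_assoc _ _ _).symm
  have e : LinearMap.mulRight ℂ (β.μ a) = LinearMap.mulRight ℂ (β.x (a + 1) * β.p (a + 2)) -
      LinearMap.mulRight ℂ (β.x (a + 2) * β.p (a + 1)) := LinearMap.ext fun z => mul_sub _ _ _
  rw [e, h, h, ← map_sub, ← map_add]
  congr 1
  refine LinearMap.ext fun f => ?_
  simp only [mo_eq, mK, mX, LinearMap.sub_apply, LinearMap.add_apply, End.mul_apply,
    LinearMap.mulLeft_apply]
  ring

theorem lp2_x (a : Fin 3) : β.lp2 * β.x a = β.x a * β.lp2 + (2 : ℂ) • β.p a := by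
  have h : ∀ b, β.p b * β.p b * β.x a = β.x a * (β.p b * β.p b) +
      if b = a then (2 : ℂ) • β.p a else 0 := fun b => by
    rw [mul_assoc, β.px, mul_add, ← mul_assoc, β.px]
    split_ifs with e
    · subst e
      rw [two_smul]
      noncomm_ring
    · noncomm_ring
  simp only [lp2, Finset.sum_mul, Finset.mul_sum, h, Finset.sum_add_distrib, Finset.sum_ite_eq',
    Finset.mem_univ, if_true]

theorem eu_x (a : Fin 3) : β.eu * β.x a = β.x a * β.eu + β.x a := by
  have h : ∀ b, β.x b * β.p b * β.x a = β.x a * (β.x b * β.p b) + if b = a then β.x a else 0 :=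
    fun b => by
      rw [mul_assoc, β.px, mul_add, ← mul_assoc, β.xx b a, mul_assoc]
      split_ifs with e
      · rw [e, mul_one]
      · rw [mul_zero]
  simp only [eu, Finset.sum_mul, Finset.mul_sum, h, Finset.sum_add_distrib, Finset.sum_ite_eq',
    Finset.mem_univ, if_true]

theorem eu_p (a : Fin 3) : β.eu * β.p a = β.p a * β.eu - β.p a := by
  have h : ∀ b, β.x b * β.p b * β.p a = β.p a * (β.x b * β.p b) - if a = b then β.p a else 0 :=
    fun b => by
      rw [← mul_assoc, β.px, add_mul, mul_assoc, mul_assoc, β.pp b a]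
      split_ifs with e
      · rw [e, one_mul, add_sub_cancel_right]
      · rw [zero_mul, add_zero, sub_zero]
  simp only [eu, Finset.sum_mul, Finset.mul_sum, h, Finset.sum_sub_distrib, Finset.sum_ite_eq,
    Finset.mem_univ, if_true]

theorem eu_q : β.eu * β.q = β.q * β.eu + (2 : ℂ) • β.q := by
  simp only [q, Finset.sum_mul, Finset.mul_sum, Finset.smul_sum, ← Finset.sum_add_distrib]
  refine Finset.sum_congr rfl fun a _ => ?_
  rw [← mul_assoc, eu_x, add_mul, mul_assoc, eu_x, two_smul]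
  noncomm_ring

theorem eu_lp2 : β.eu * β.lp2 = β.lp2 * β.eu - (2 : ℂ) • β.lp2 := by
  simp only [lp2, Finset.sum_mul, Finset.mul_sum, Finset.smul_sum, ← Finset.sum_sub_distrib]
  refine Finset.sum_congr rfl fun a _ => ?_
  rw [← mul_assoc, eu_p, sub_mul, mul_assoc, eu_p, two_smul]
  noncomm_ring

theorem lp2_q : β.lp2 * β.q = β.q * β.lp2 + (4 : ℂ) • β.eu + (6 : ℂ) • 1 := by
  have h : ∀ a, β.lp2 * (β.x a * β.x a) = β.x a * β.x a * β.lp2 + (4 : ℂ) • (β.x a * β.p a) +
      (2 : ℂ) • 1 := fun a => by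
    rw [← mul_assoc, lp2_x, add_mul, mul_assoc, lp2_x, smul_mul_assoc, β.px, if_pos rfl, mul_add,
      mul_smul_comm, ← mul_assoc]
    module
  simp only [q, eu, Fin.sum_univ_three, mul_add, add_mul, h]
  module

theorem sl : Sl ((2⁻¹ : ℂ) • ad β.q) ((-2⁻¹ : ℂ) • ad β.lp2) (ad β.eu) := by
  have j : ∀ a b z : B, ad a (ad b z) = ad b (ad a z) + ((a * b - b * a) * z - z * (a * b - b * a)) :=
    fun a b z => by simp only [ad_apply]; noncomm_ring
  refine ⟨fun z => ?_, fun z => ?_, fun z => ?_⟩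
  · simp only [LinearMap.smul_apply, map_smul]
    rw [j, eu_q, add_sub_cancel_left, smul_mul_assoc, mul_smul_comm, ad_apply β.q z]
    module
  · simp only [LinearMap.smul_apply, map_smul]
    rw [j, eu_lp2, sub_sub_cancel_left, neg_mul, mul_neg, smul_mul_assoc, mul_smul_comm,
      ad_apply β.lp2 z]
    module
  · simp only [LinearMap.smul_apply, map_smul]
    rw [j β.lp2, lp2_q, add_assoc, add_sub_cancel_left, ad_apply β.eu z]
    simp only [add_mul, mul_add, smul_mul_assoc, mul_smul_comm, one_mul, mul_one]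
    module

end BW

end

end Vale.Agent.P286E17
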